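import Vale.Agent.P002.Pair.SmallBad

/-! For genus at least two, representations with a handle of non-scalar commutant form a set of
small dimension. -/

open Matrix Module Filter Topology
open scoped ENNReal

namespace Vale.Agent.P002.Pair

open Vale.Agent.P002.Surface (Mat Tup rel PMap)

attribute [local instance] Matrix.linftyOpNormedAddCommGroup Matrix.linftyOpNormedSpace
  Matrix.linftyOpNormedRing Matrix.linftyOpNormedAlgebra

variable {g r s : ℕ} {J : Fin s → Mat r}

/-- A non-scalar commutant holds a nontrivial idempotent or a nonzero element of square zero. -/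
lemma exists_special (hr : 0 < r) {X : Set (Mat r)} {x : Mat r} (hx : ∀ a ∈ X, a * x = x * a)
    (hne : ∀ c : ℂ, x ≠ c • 1) :
    ∃ (ε : ℂ) (e : Mat r), (ε = 0 ∨ ε = 1) ∧ e * e = ε • e ∧ (∀ c : ℂ, e ≠ c • 1) ∧ ∀ a ∈ X, a * e = e * a := by
  have : Nonempty (Fin r) := ⟨⟨0, hr⟩⟩
  obtain ⟨c, hc⟩ := Module.End.exists_eigenvalue (Matrix.toLin' x)
  set y := x - c • (1 : Mat r) with hy
  have hy0 : y ≠ 0 := fun h => hne c (sub_eq_zero.1 h)
  have hya : ∀ a ∈ X, Commute a y := fun a ha => by
    show a * y = y * a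
    simp [hy, mul_sub, sub_mul, hx a ha]
  have hpoly : ∀ (p : Polynomial ℂ), ∀ a ∈ X, a * Polynomial.aeval y p = Polynomial.aeval y p * a :=
    fun p a ha => (Algebra.commute_of_mem_adjoin_singleton_of_commute
      (Polynomial.aeval_mem_adjoin_singleton ℂ y) (hya a ha)).eq
  by_cases hnil : IsNilpotent y
  · -- the last nonzero power
    classical
    let n := Nat.find hnil
    have hn : y ^ n = 0 := Nat.find_spec hnil
    have hn1 : 1 < n := by
      rcases Nat.lt_or_ge 1 n with h | h
      · exact h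
      · interval_cases hh : n
        · exact absurd hn (by simp)
        · exact absurd (by simpa using hn) hy0
    have hne1 : y ^ (n - 1) ≠ 0 := Nat.find_min hnil (show n - 1 < n by omega)
    refine ⟨0, y ^ (n - 1), Or.inl rfl, ?_, fun d hd => ?_, fun a ha => ((hya a ha).pow_right _).eq⟩
    · rw [zero_smul, ← pow_add, show n - 1 + (n - 1) = n + (n - 2) by omega, pow_add, hn, zero_mul]
    · have h2 : y ^ (n - 1) * y = 0 := by rw [← pow_succ, show n - 1 + 1 = n by omega, hn]
      rw [hd, smul_mul_assoc, one_mul, smul_eq_zero] at h2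
      rcases h2 with h2 | h2
      · exact hne1 (by rw [hd, h2, zero_smul])
      · exact hy0 h2
  · obtain ⟨q, hq, hndvd⟩ := (minpoly ℂ y).exists_eq_pow_rootMultiplicity_mul_and_not_dvd
      (minpoly.ne_zero_of_finite ℂ y) 0
    rw [map_zero, sub_zero] at hq hndvd
    set k := (minpoly ℂ y).rootMultiplicity 0
    obtain ⟨u, v, huv⟩ : IsCoprime (Polynomial.X ^ k) q :=
      (Polynomial.prime_X.coprime_iff_not_dvd.2 hndvd).pow_left
    set e := Polynomial.aeval y (v * q) with he
    have hkill : y ^ k * Polynomial.aeval y q = 0 := by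
      have h := minpoly.aeval ℂ y
      rwa [hq, map_mul, map_pow, Polynomial.aeval_X] at h
    have hsum : Polynomial.aeval y u * y ^ k + e = 1 := by
      have h := congrArg (Polynomial.aeval y) huv
      rwa [map_add, map_one, map_mul, map_pow, Polynomial.aeval_X] at h
    have hek : y ^ k * e = 0 := by
      rw [he, mul_comm v q, map_mul, ← mul_assoc, hkill, zero_mul]
    have hee : e * e = e := by
      have h : Polynomial.aeval y u * y ^ k * e = 0 := by rw [mul_assoc, hek, mul_zero]
      calc e * e = Polynomial.aeval y u * y ^ k * e + e * e := by rw [h, zero_add]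
        _ = e := by rw [← add_mul, hsum, one_mul]
    refine ⟨1, e, Or.inr rfl, by rw [one_smul, hee], fun d hd => ?_, hpoly _⟩
    have hd' : d = 0 ∨ d = 1 := by
      have h := hee
      rw [hd, smul_mul_assoc, one_mul, smul_smul] at h
      have h2 := congrFun (congrFun h ⟨0, hr⟩) ⟨0, hr⟩
      simp only [Matrix.smul_apply, Matrix.one_apply_eq, smul_eq_mul, mul_one] at h2
      rcases eq_or_ne d 0 with h0 | h0
      · exact Or.inl h0
      · exact Or.inr (mul_left_cancel₀ h0 (by rw [h2, mul_one]))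
    rcases hd' with h | h
    · -- then `y` is invertible, against the eigenvalue
      have he0 : e = 0 := by rw [hd, h, zero_smul]
      rw [he0, add_zero] at hsum
      obtain ⟨w, hw⟩ := hc.exists_hasEigenvector
      have hyw : y *ᵥ w = 0 := by
        have h0 := hw.apply_eq_smul
        rw [Matrix.toLin'_apply] at h0
        rw [hy, sub_mulVec, smul_mulVec, one_mulVec, h0, sub_self]
      have hkw : y ^ k *ᵥ w = 0 := by
        rcases Nat.eq_zero_or_pos k with hk | hk
        · exfalso
          have h1 : (minpoly ℂ y).eval 0 ≠ 0 := by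
            rw [hq, hk, pow_zero, one_mul]
            exact fun h => hndvd (Polynomial.X_dvd_iff.2 (by
              rwa [Polynomial.coeff_zero_eq_eval_zero]))
          have h2 : Module.End.HasEigenvalue (Matrix.toLin' y) 0 :=
            Module.End.hasEigenvalue_of_hasEigenvector (x := w)
              ⟨Module.End.mem_eigenspace_iff.2 (by rw [Matrix.toLin'_apply, hyw, zero_smul]), hw.2⟩
          have h3 := Module.End.isRoot_of_hasEigenvalue h2
          rw [Matrix.minpoly_toLin'] at h3
          exact h1 h3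
        · rw [show k = k - 1 + 1 by omega, pow_succ, ← mulVec_mulVec, hyw, mulVec_zero]
      have := congrArg (fun M : Mat r => M *ᵥ w) hsum
      simp only [← mulVec_mulVec, hkw, mulVec_zero, one_mulVec] at this
      exact hw.2 this.symm
    · exact hnil ⟨k, by
        have he1 : e = 1 := by rw [hd, h, one_smul]
        rwa [he1, mul_one] at hek⟩

/-- The tangent space of the idempotents, or elements of square zero, of given rank is orthogonal
to the centraliser. -/
lemma trace_tangent {x w y : Mat r} {ε : ℂ} (hε : ε = 0 ∨ ε = 1) (hx : x * x = ε • x)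
    (hy : x * y = y * x) (hw : w * x + x * w = ε • w)
    (hrk : ∀ z, x * z = 0 → ∃ u, x * u = w * z) : (w * y).trace = 0 := by
  rcases hε with rfl | rfl
  · rw [zero_smul] at hx hw
    -- a right pseudo-inverse
    obtain ⟨S, hS⟩ : ∃ S : Mat r, x * S * x = x := by
      obtain ⟨f, hf⟩ := (Matrix.toLin' x).rangeRestrict.exists_rightInverse_of_surjective
        (LinearMap.range_rangeRestrict _)
      obtain ⟨pr, hpr⟩ := (Matrix.toLin' x).range.subtype.exists_leftInverse_of_injective
        (Matrix.toLin' x).range.ker_subtype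
      refine ⟨LinearMap.toMatrix' (f.comp pr), Matrix.toLin'.injective (LinearMap.ext fun v => ?_)⟩
      rw [Matrix.toLin'_mul, Matrix.toLin'_mul, Matrix.toLin'_toMatrix']
      have e1 : pr (Matrix.toLin' x v) = (Matrix.toLin' x).rangeRestrict v :=
        LinearMap.congr_fun hpr ((Matrix.toLin' x).rangeRestrict v)
      show Matrix.toLin' x (f (pr (Matrix.toLin' x v))) = Matrix.toLin' x v
      rw [e1]
      exact congrArg Subtype.val (LinearMap.congr_fun hf _)
    have hq : x * (1 - S * x) = 0 := by rw [mul_sub, mul_one, ← mul_assoc, hS, sub_self]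
    obtain ⟨u, hu⟩ := hrk _ hq
    have hk : ∀ z, x * z = 0 → w * z = x * S * (w * z) := fun z hz => by
      have h1 : z = (1 - S * x) * z := by rw [sub_mul, one_mul, mul_assoc, hz, mul_zero, sub_zero]
      rw [h1, ← mul_assoc w, ← hu, mul_assoc x u, ← mul_assoc (x * S) x, hS]
    have hz : x * (y * (1 - S * x)) = 0 := by rw [← mul_assoc, hy, mul_assoc, hq, mul_zero]
    have hwx : x * w = -(w * x) := eq_neg_of_add_eq_zero_right hw
    have hA : (w * y * (S * x)).trace = -(x * S * (w * y)).trace := by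
      calc (w * y * (S * x)).trace = (x * (w * y * S)).trace := by
            rw [trace_mul_comm x]; simp only [mul_assoc]
        _ = -(w * (y * x) * S).trace := by
            rw [← hy]; simp only [← mul_assoc, hwx, neg_mul, trace_neg]
        _ = -(x * S * (w * y)).trace := by
            rw [trace_mul_comm (x * S)]; simp only [mul_assoc]
    have hB : (w * (y * (1 - S * x))).trace = (x * S * (w * y)).trace := by
      rw [hk _ hz, ← mul_assoc w y, mul_sub, mul_sub, trace_sub, mul_one]
      have : (x * S * (w * y * (S * x))).trace = 0 := by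
        rw [← mul_assoc (w * y) S x, ← mul_assoc (x * S), trace_mul_comm]
        simp only [← mul_assoc, hx, zero_mul, trace_zero]
      rw [this, sub_zero]
    rw [← mul_assoc, mul_sub, mul_one, trace_sub] at hB
    linear_combination hA + hB
  · rw [one_smul] at hx hw
    have h1 : x * w * x = 0 := by
      have h := congrArg (fun M => x * M) hw
      simp only [mul_add, ← mul_assoc, hx] at h
      exact add_eq_right.1 h
    calc (w * y).trace = ((w * x + x * w) * y).trace := by rw [hw]
      _ = (w * (x * x) * y).trace + (x * x * w * y).trace := by rw [hx, add_mul, trace_add]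
      _ = (w * x * (y * x)).trace + (x * w * y * x).trace := by
          rw [← hy, trace_mul_comm (x * w * y) x]; simp only [mul_assoc]
      _ = (x * w * x * y).trace + (x * w * x * y).trace := by
          rw [← mul_assoc, trace_mul_comm (w * x * y) x, ← mul_assoc, ← mul_assoc,
            mul_assoc (x * w) y x, ← hy, ← mul_assoc]
      _ = 0 := by rw [h1, zero_mul, trace_zero, add_zero]

/-- A non-scalar matrix has an adjoint map of rank at least `r`. -/
lemma rank_adL_ge {x : Mat r} (hx : ∀ c : ℂ, x ≠ c • 1) :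
    finrank ℂ (cen x) + r ≤ r ^ 2 := by
  obtain ⟨v, hv⟩ : ∃ v : Fin r → ℂ, LinearIndependent ℂ ![v, x *ᵥ v] := by
    by_contra! h
    have hc : ∀ v : Fin r → ℂ, v ≠ 0 → ∃ c : ℂ, x *ᵥ v = c • v := fun v hv => by
      have := h v
      rw [LinearIndependent.pair_iff' hv] at this
      push Not at this
      obtain ⟨c, hc⟩ := this
      exact ⟨c, hc.symm⟩
    rcases Nat.eq_zero_or_pos r with h0 | h0
    · exact hx 0 (by subst h0; ext i; exact i.elim0)
    let e : Fin r → Fin r → ℂ := fun i => Pi.single i 1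
    choose c hce using fun i => hc (e i) (by simp [e])
    have hcc : ∀ i j, c i = c j := by
      intro i j
      rcases eq_or_ne i j with rfl | hij
      · rfl
      obtain ⟨d, hd⟩ := hc (e i + e j) fun h => by
        have := congrFun h i
        simp [e, hij] at this
      rw [mulVec_add, hce, hce] at hd
      have h1 := congrFun hd i
      have h2 := congrFun hd j
      simp [e, hij, hij.symm] at h1 h2
      rw [h1, h2]
    refine hx (c ⟨0, h0⟩) (Matrix.ext_of_mulVec_single fun i => ?_)
    rw [hce i, hcc i ⟨0, h0⟩, smul_mulVec, one_mulVec]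
  let f : (Fin r → ℂ) →ₗ[ℂ] Mat r :=
    { toFun := fun φ => x * vecMulVec v φ - vecMulVec v φ * x
      map_add' := fun a b => by simp [vecMulVec_add, mul_add, add_mul]; abel
      map_smul' := fun c a => by simp [vecMulVec_smul, smul_sub] }
  have hf : Function.Injective f := by
    rw [← LinearMap.ker_eq_bot, LinearMap.ker_eq_bot']
    intro φ hφ
    have hφ' : x * vecMulVec v φ - vecMulVec v φ * x = 0 := hφ
    rw [mul_vecMulVec, vecMulVec_mul] at hφ'
    funext j
    have hli := LinearIndependent.pair_iff.1 hv (-((φ ᵥ* x) j)) (φ j) (funext fun i => by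
      have := congrFun (congrFun hφ' i) j
      simp only [Matrix.sub_apply, vecMulVec_apply, Matrix.zero_apply] at this
      simp only [Pi.add_apply, Pi.smul_apply, smul_eq_mul, Pi.zero_apply]
      linear_combination this)
    exact hli.2
  set A := LinearMap.mulLeft ℂ x - LinearMap.mulRight ℂ x with hA
  have h1 := A.finrank_range_add_finrank_ker
  have h2 : finrank ℂ f.range ≤ finrank ℂ A.range := by
    refine Submodule.finrank_mono ?_
    rintro _ ⟨φ, rfl⟩
    exact ⟨vecMulVec v φ, rfl⟩
  rw [LinearMap.finrank_range_of_inj hf, Module.finrank_pi, Fintype.card_fin] at h2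
  rw [Module.finrank_matrix, Fintype.card_fin, finrank_self, mul_one, ← sq] at h1
  show finrank ℂ A.ker + r ≤ r ^ 2
  omega

lemma finrank_le_add_map {E U : Type} [AddCommGroup E] [Module ℂ E] [FiniteDimensional ℂ E]
    [AddCommGroup U] [Module ℂ U] [FiniteDimensional ℂ U] (K : Submodule ℂ (E × U))
    {P : Submodule ℂ U} (hP : ∀ z ∈ K, z.2 ∈ P) :
    finrank ℂ K ≤ finrank ℂ P + finrank ℂ (K.comap (LinearMap.inl ℂ E U)) := by
  have h := ((LinearMap.snd ℂ E U).comp K.subtype).finrank_range_add_finrank_ker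
  have h1 : finrank ℂ ((LinearMap.snd ℂ E U).comp K.subtype).range ≤ finrank ℂ P :=
    Submodule.finrank_mono (by rintro _ ⟨z, rfl⟩; exact hP z z.2)
  let f : ((LinearMap.snd ℂ E U).comp K.subtype).ker →ₗ[ℂ] K.comap (LinearMap.inl ℂ E U) :=
    (((LinearMap.fst ℂ E U).comp K.subtype).comp (Submodule.subtype _)).codRestrict _ fun x => by
      have h0 : (x.1 : E × U).2 = 0 := x.2
      show ((x.1 : E × U).1, (0 : U)) ∈ K
      rw [← h0]
      exact x.1.2
  have h2 := LinearMap.finrank_le_finrank_of_injective (f := f) fun x y hxy =>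
    Subtype.ext (Subtype.ext (Prod.ext (congrArg Subtype.val hxy :) (x.2.trans y.2.symm)))
  omega

lemma exists_small_ker {E F : Type} [NormedAddCommGroup E] [NormedSpace ℂ E]
    [FiniteDimensional ℂ E] [NormedAddCommGroup F] [NormedSpace ℂ F] [FiniteDimensional ℂ F]
    {G : E → F} {A : E →L[ℂ] F} {q : E} (hG : HasStrictFDerivAt G A q) :
    ∃ U ∈ 𝓝 q, ∃ K : Submodule ℂ E, (∀ v, v ∈ K ↔ A v = 0) ∧
      dimH ({x | G x = G q} ∩ U) ≤ ((2 * finrank ℂ K : ℕ) : ℝ≥0∞) := by
  obtain ⟨U, hU, h⟩ := exists_small_nhds hG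
  exact ⟨U, hU, A.ker, fun _ => Iff.rfl, h⟩

/-- Tuples whose `j`-th pair commutes with a non-scalar idempotent or element of square zero. -/
def BadC (J : Fin s → Mat r) (j : Fin g) : Set (Amb g s r) :=
  {q | q ∈ Sol J ∧ ∃ (ε : ℂ) (x : Mat r), (ε = 0 ∨ ε = 1) ∧ x * x = ε • x ∧
    (∀ c : ℂ, x ≠ c • 1) ∧ x * q (sa j) = q (sa j) * x ∧ x * q (sb j) = q (sb j) * x}

lemma dimH_badC (hg : 1 ≤ g) (hr : 2 ≤ r) {i j : Fin g} (hij : i ≠ j) :
    dimH (BadC J j) ≤ ((2 * ((2 * g + s - 1) * (r ^ 2 - 1) - 1) : ℕ) : ℝ≥0∞) := by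
  classical
  let mulm := ContinuousLinearMap.mul ℂ (Mat r)
  let lifted : Bool × ℕ × ℕ → Set (Amb g s r × Mat r) := fun n =>
    {z | z.1 ∈ Sol J ∧ z.2 * z.2 = (if n.1 then (1 : ℂ) else 0) • z.2 ∧
      (∀ c : ℂ, z.2 ≠ c • 1) ∧
      z.2 * z.1 (sa j) = z.1 (sa j) * z.2 ∧ z.2 * z.1 (sb j) = z.1 (sb j) * z.2 ∧
      finrank ℂ (cen (z.1 (sa i))) = n.2.1 ∧ finrank ℂ (mulm z.2).ker = n.2.2}
  have hcov : BadC J j ⊆ ⋃ n, Prod.fst '' lifted n := by
    rintro q ⟨hq, ε, x, hε, hxx, hne, hca, hcb⟩
    refine Set.mem_iUnion.2 ⟨(decide (ε = 1), _, _), (q, x),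
      ⟨hq, ?_, hne, hca, hcb, rfl, rfl⟩, rfl⟩
    rcases hε with h | h <;> subst h <;> simpa using hxx
  refine (dimH_mono hcov).trans ?_
  rw [dimH_iUnion]
  have : ProperSpace (Amb g s r × Mat r) := FiniteDimensional.proper ℂ _
  refine iSup_le fun n => (LipschitzWith.prod_fst.dimH_image_le _).trans ?_
  refine dimH_le_of_local fun z hz => ?_
  obtain ⟨q, x⟩ := z
  obtain ⟨hsol, hxx, hne, hca, hcb, hza, hzx⟩ := hz
  simp only at hsol hxx hne hca hcb hza hzx
  set ε : ℂ := if n.1 then 1 else 0 with hεdef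
  have hε : ε = 0 ∨ ε = 1 := by rw [hεdef]; split_ifs <;> simp
  obtain ⟨U₁, hU₁, Ψ₁, Ψ₁', hd₁, h0₁, hU₁', hker₁⟩ := exists_rank_equation (adL r (q (sa i)))
  obtain ⟨U₂, hU₂, Ψ₂, Ψ₂', hd₂, h0₂, hU₂', hker₂⟩ := exists_rank_equation (mulm x)
  let πf := ContinuousLinearMap.fst ℂ (Amb g s r) (Mat r)
  let πs := ContinuousLinearMap.snd ℂ (Amb g s r) (Mat r)
  let π : Idx g s → (Amb g s r × Mat r →L[ℂ] Mat r) := fun t =>
    (ContinuousLinearMap.proj (R := ℂ) (φ := fun _ : Idx g s => Mat r) t).comp πf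
  let P₁ : Amb g s r × Mat r →L[ℂ] (Mat r →L[ℂ] Mat r) := (adL r).comp (π (sa i))
  let P₂ : Amb g s r × Mat r →L[ℂ] (Mat r →L[ℂ] Mat r) := mulm.comp πs
  have d1 : HasStrictFDerivAt (fun z : Amb g s r × Mat r => (dets z.1, relF J z.1))
      (((detsD q).prod (fderiv ℂ (relF J) q)).comp πf) (q, x) := by
    have h1 := ((hasStrictFDerivAt_dets hsol.1).prodMk (hasFDerivAt_relF J q))
    have h2 := πf.hasStrictFDerivAt (x := (q, x))
    exact HasStrictFDerivAt.comp (g := fun p : Amb g s r => (dets p, relF J p)) (f := fun z => πf z)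
      (q, x) h1 h2
  have d2 : HasStrictFDerivAt (fun z => Ψ₁ (P₁ z)) (Ψ₁'.comp P₁) (q, x) := by
    have h1 := P₁.hasStrictFDerivAt (x := (q, x))
    have h2 : HasStrictFDerivAt Ψ₁ Ψ₁' (P₁ (q, x)) := hd₁
    exact h2.comp (q, x) h1
  have d3 : HasStrictFDerivAt (fun z => Ψ₂ (P₂ z)) (Ψ₂'.comp P₂) (q, x) := by
    have h1 := P₂.hasStrictFDerivAt (x := (q, x))
    have h2 : HasStrictFDerivAt Ψ₂ Ψ₂' (P₂ (q, x)) := hd₂
    exact h2.comp (q, x) h1
  have hps := πs.hasStrictFDerivAt (x := (q, x))
  have d4 := (hps.mul' hps).fun_sub (hps.const_smul ε)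
  have d5 := fun t => (hps.mul' (π t).hasStrictFDerivAt).fun_sub
    ((π t).hasStrictFDerivAt.mul' hps)
  have hG := (d1.prodMk (d2.prodMk d3)).prodMk (d4.prodMk ((d5 (sa j)).prodMk (d5 (sb j))))
  obtain ⟨U, hU, K, hKA, hdim⟩ := exists_small_ker hG
  refine ⟨U ∩ (P₁ ⁻¹' U₁ ∩ P₂ ⁻¹' U₂), inter_mem hU (inter_mem
    (P₁.continuous.continuousAt.preimage_mem_nhds hU₁)
    (P₂.continuous.continuousAt.preimage_mem_nhds hU₂)), ?_⟩
  refine le_trans (dimH_mono ?_) (hdim.trans ?_)
  · rintro ⟨y, w⟩ ⟨⟨hys, hww, -, hwa, hwb, hyn, hwn⟩, hyU, hy1, hy2⟩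
    refine ⟨Prod.ext (Prod.ext (Prod.ext (funext fun t => (hys.1 t).trans (hsol.1 t).symm)
      (hys.2.trans hsol.2.symm)) (Prod.ext ?_ ?_)) (Prod.ext ?_ (Prod.ext ?_ ?_)), hyU⟩
    · exact ((hU₁' _ hy1).2 (((congrArg (fun S : Submodule ℂ (Mat r) => finrank ℂ S)
        (adL_ker (y (sa i)))).trans (hyn.trans hza.symm)).trans
          (congrArg (fun S : Submodule ℂ (Mat r) => finrank ℂ S) (adL_ker (q (sa i)))).symm)).trans
        h0₁.symm
    · exact ((hU₂' _ hy2).2 (hwn.trans hzx.symm)).trans h0₂.symm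
    · show w * w - ε • w = x * x - ε • x
      rw [hww, hxx, sub_self, sub_self]
    · show w * y (sa j) - y (sa j) * w = x * q (sa j) - q (sa j) * x
      rw [hwa, hca, sub_self, sub_self]
    · show w * y (sb j) - y (sb j) * w = x * q (sb j) - q (sb j) * x
      rw [hwb, hcb, sub_self, sub_self]
  have hmem : ∀ v w, (v, w) ∈ K → (detsD q v = 0 ∧ fderiv ℂ (relF J) q v = 0) ∧
      Ψ₁' (adL r (v (sa i))) = 0 ∧ Ψ₂' (mulm w) = 0 ∧ x * w + w * x = ε • w ∧
      (∀ t, t = sa j ∨ t = sb j → x * v t + w * q t = q t * w + v t * x) := by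
    intro v w h
    rw [hKA] at h
    have h1 : detsD q v = 0 := congrArg Prod.fst (congrArg Prod.fst (congrArg Prod.fst h))
    have h1' : fderiv ℂ (relF J) q v = 0 :=
      congrArg Prod.snd (congrArg Prod.fst (congrArg Prod.fst h))
    have h2 := congrArg Prod.fst (congrArg Prod.snd (congrArg Prod.fst h))
    have h3 := congrArg Prod.snd (congrArg Prod.snd (congrArg Prod.fst h))
    have h4 := congrArg Prod.fst (congrArg Prod.snd h)
    have h5 := congrArg Prod.fst (congrArg Prod.snd (congrArg Prod.snd h))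
    have h6 := congrArg Prod.snd (congrArg Prod.snd (congrArg Prod.snd h))
    refine ⟨⟨h1, h1'⟩, h2, h3, ?_, ?_⟩
    · simp [π, πs, πf, sub_eq_zero] at h4
      exact h4
    · rintro t (rfl | rfl)
      · simp [π, πs, πf, sub_eq_zero] at h5
        exact h5
      · simp [π, πs, πf, sub_eq_zero] at h6
        exact h6
  have hP : ∀ z ∈ K, z.2 ∈ orth (cen x) := by
    rintro ⟨v, w⟩ hz
    obtain ⟨-, -, h3, h4, -⟩ := hmem v w hz
    exact mem_orth.2 fun y hy => trace_tangent hε hxx (mem_cen.1 hy) (by rw [add_comm]; exact h4)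
      fun z hz => hker₂ (mulm w) h3 z hz
  have hKK := finrank_le_add_map K hP
  set K' := K.comap (LinearMap.inl ℂ (Amb g s r) (Mat r))
  let S : Idx g s → Submodule ℂ (Mat r) := fun t =>
    if t = sa i then derTan (q t) else if t = sa j ∨ t = sb j then cen x ⊓ tanS (q t) else tanS (q t)
  set o := finrank ℂ (orth (cen x))
  have ho : o + finrank ℂ (cen x) = r ^ 2 := finrank_orth _
  let e : Idx g s → ℕ := fun t => ((if t = sa i then finrank ℂ (der (q t)) else 0) +
    if t = sa j then o else 0) + if t = sb j then o else 0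
  have hsij : (sa i : Idx g s) ≠ sa j := fun h => hij (by simpa [sa] using h)
  have hsb : ∀ k l : Fin g, (sa k : Idx g s) ≠ sb l := fun k l h => by simp [sa, sb] at h
  have hC := finrank_slots S e (fun t => ?_) (c := finrank ℂ (der (q (sa i))) + o + o)
    (by simp [e, Finset.sum_add_distrib])
  rotate_left
  · have hlt : ∀ t, x * q t = q t * x → finrank ℂ ↥(cen x ⊓ tanS (q t)) + 1 ≤ finrank ℂ (cen x) := by
      intro t ht
      refine Submodule.finrank_lt_finrank_of_lt (lt_of_le_of_ne inf_le_left fun h => ?_)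
      have h1 : q t ∈ cen x := mem_cen.2 ht
      rw [← h] at h1
      have h2 : detD (q t) (q t) = 0 := h1.2
      rw [detD_self (hsol.1 t)] at h2
      exact absurd (Nat.cast_eq_zero.1 h2) (by omega)
    by_cases h1 : t = sa i
    · subst h1
      have := finrank_derTan (by omega : 0 < r) (hsol.1 (sa i))
      have he : e (sa i) = finrank ℂ (der (q (sa i))) := by simp [e, hsij, hsb]
      rw [show S (sa i) = derTan (q (sa i)) from if_pos rfl, he]
      exact this.le
    · by_cases h2 : t = sa j ∨ t = sb j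
      · have hS : S t = cen x ⊓ tanS (q t) := (if_neg h1).trans (if_pos h2)
        have he : e t = o := by
          rcases h2 with h | h <;> subst h <;> simp [e, hsij.symm, hsb, (hsb _ _).symm]
        have := hlt t (by rcases h2 with h | h <;> subst h <;> assumption)
        rw [hS, he]
        linarith
      · have := finrank_tanS (by omega : 0 < r) (hsol.1 t)
        push Not at h2
        have he : e t = 0 := by simp [e, h1, h2.1, h2.2]
        rw [show S t = tanS (q t) from (if_neg h1).trans (if_neg (by simp [h2.1, h2.2])), he,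
          Nat.add_zero]
        exact this.le
  have hKC : K' ≤ Submodule.pi Set.univ S := by
    intro v hv t _
    obtain ⟨⟨h1, -⟩, h2, -, -, h5⟩ := hmem v 0 hv
    have hdet : detD (q t) (v t) = 0 := congrFun h1 t
    show v t ∈ if t = sa i then derTan (q t) else
      if t = sa j ∨ t = sb j then cen x ⊓ tanS (q t) else tanS (q t)
    split_ifs with ha hb
    · subst ha
      exact mem_derTan hdet fun y hy => hker₁ _ h2 y (sub_eq_zero.2 (mem_cen.1 hy))
    · refine ⟨mem_cen.2 ?_, hdet⟩
      simpa using h5 t hb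
    · exact hdet
  obtain ⟨I, hI, hIdim⟩ := rank_sb (by omega) hsol i (C := Submodule.pi Set.univ S) fun Y hY =>
    single_mem_pi (by
      show _ ∈ if sb i = sa i then _ else if sb i = sa j ∨ sb i = sb j then _ else _
      rw [if_neg (hsb _ _).symm, if_neg (by simp [sa, sb, hij])]
      exact mul_mem_tanS (hsol.1 _) hY)
  have hcount := finrank_count (fderiv ℂ (relF J) q).toLinearMap hKC
    (fun v hv => (hmem v 0 hv).1.2) hI
  have h1 := finrank_cen_le (q (sa i))
  have h2 := rank_adL_ge hne
  have h3 := expected (s := s) hg (show 1 ≤ r by omega)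
  have hC' : finrank ℂ ↥(Submodule.pi Set.univ S) + (finrank ℂ (der (q (sa i))) + o + o) +
      (2 * g + s) ≤ (2 * g + s) * r ^ 2 := hC
  have hcount' : finrank ℂ K' + finrank ℂ I ≤ finrank ℂ ↥(Submodule.pi Set.univ S) := hcount
  exact_mod_cast (show 2 * finrank ℂ K ≤ 2 * ((2 * g + s - 1) * (r ^ 2 - 1) - 1) by omega)

/-- **Small bad set, genus at least two.** -/
theorem smallBad_two (hg : 2 ≤ g) (hr : 2 ≤ r) (hJ : ∀ i, (J i).det = 1) :
    Global.SmallBad J g := by
  let i0 : Fin g := ⟨0, by omega⟩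
  let i1 : Fin g := ⟨1, by omega⟩
  set N := (2 * g + s - 1) * (r ^ 2 - 1) with hN
  have hNpos : 1 ≤ N := by
    have := Nat.one_lt_pow two_ne_zero (show 1 < r by omega)
    exact Nat.one_le_iff_ne_zero.2 (Nat.mul_ne_zero (by omega) (by omega))
  refine ⟨back g s r '' BadC J i1, ?_, fun z hz hzE U hU => ?_⟩
  · exact lt_of_le_of_lt ((back g s r).lipschitz.dimH_image_le _) (lt_of_le_of_lt
      (dimH_badC (by omega) hr (show i0 ≠ i1 by simp [i0, i1]))
      (Nat.cast_lt.2 (show 2 * (N - 1) < 2 * N by omega)))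
  let q : Amb g s r :=
    Sum.elim (fun p => if p.2 then (z.1 p.1).2 else (z.1 p.1).1) fun l => z.2 l
  have hqz : back g s r q = z := by
    refine Prod.ext (funext fun j => ?_) rfl
    simp [back_apply, hand, q]
  have hqs : q ∈ Sol J := by
    refine ⟨fun t => ?_, ?_⟩
    · rcases t with ⟨j, _ | _⟩ | l
      exacts [(hz.1 j).1, (hz.1 j).2, hz.2.1 l]
    · have := hz.2.2
      rw [← hqz] at this
      exact this
  have hqB : q ∉ BadC J i1 := fun h => hzE ⟨q, h, hqz⟩
  have hcl : Continuous fun x : Amb g s r => (hand x, General.bd J (conjs x)) :=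
    ((ContinuousLinearMap.fst ℂ _ _).comp (back g s r)).continuous.prodMk
      (continuous_pi fun l => ((continuous_apply (Sum.inr l)).mul continuous_const).mul
        (continuous_apply (Sum.inr l)).matrix_adjugate)
  have hV : (fun x : Amb g s r => (hand x, General.bd J (conjs x))) ⁻¹' U ∈ 𝓝 q :=
    hcl.continuousAt.preimage_mem_nhds (by rw [← hqz] at hU; exact hU)
  have hscal : ∀ y : Mat r, y * q (sa i1) = q (sa i1) * y → y * q (sb i1) = q (sb i1) * y →
      ∃ c : ℂ, y = c • 1 := by
    intro y ha hb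
    by_contra! hne
    obtain ⟨ε, x, hε, hxx, hx, hcom⟩ := exists_special (by omega : 0 < r)
      (X := {q (sa i1), q (sb i1)}) (x := y) (by
        rintro a (rfl | rfl)
        exacts [ha.symm, hb.symm]) hne
    exact hqB ⟨hqs, ε, x, hε, hxx, hx, (hcom _ (by simp)).symm, (hcom _ (by simp)).symm⟩
  obtain ⟨x, hx, hxs, hirr⟩ := exists_irr_of_orth hr hJ hqs (i := i0)
    (T := Set.range fun b : Bool => (Sum.inl (i1, b) : Idx g s))
    (fun b => by
      rintro ⟨b', hb'⟩
      simp [i0, i1] at hb')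
    (fun x hx => by
      obtain ⟨h1, h2⟩ := orth_handle hqs i1 x fun b => hx _ ⟨b, rfl⟩
      obtain ⟨c, hc⟩ := hscal _ h1 h2
      have hP := det_preH hqs.1 (i1 : ℕ)
      refine ⟨c, ?_⟩
      calc x = preH q i1 * ((preH q i1).adjugate * x * preH q i1) * (preH q i1).adjugate := by
            simp only [mul_assoc]
            rw [Surface.mul_adj hP, mul_one, ← mul_assoc, Surface.mul_adj hP, one_mul]
        _ = c • 1 := by rw [hc, mul_smul_comm, mul_one, smul_mul_assoc, Surface.mul_adj hP])
    hV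
  exact ⟨_, hx, ⟨fun j => ⟨hxs.1 _, hxs.1 _⟩, fun l => ⟨conjs x l, hxs.1 _, rfl⟩, hxs.2⟩,
    i0, hirr⟩

end Vale.Agent.P002.Pair
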