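import Vale.Agent.P002.Pair.Cyclic

/-! Linear algebra for dimension counts: orthogonals, traceless parts and affine charts of
projections onto subspaces. -/

open Matrix Module

namespace Vale.Agent.P002.Pair

open Vale.Agent.P002.Surface (Mat)

attribute [local instance] Matrix.linftyOpNormedAddCommGroup Matrix.linftyOpNormedSpace
  Matrix.linftyOpNormedRing Matrix.linftyOpNormedAlgebra

variable {r : ℕ} {ι : Type} [Fintype ι] {V : Type} [AddCommGroup V] [Module ℂ V]
  [FiniteDimensional ℂ V]

lemma finrank_pi_sub (S : ι → Submodule ℂ (Mat r)) :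
    finrank ℂ (Submodule.pi Set.univ S) ≤ ∑ t, finrank ℂ (S t) := by
  let f : Submodule.pi Set.univ S →ₗ[ℂ] Π t, S t :=
    { toFun := fun x t => ⟨(x : ι → Mat r) t, x.2 t trivial⟩
      map_add' := fun x y => rfl
      map_smul' := fun c x => rfl }
  have h := LinearMap.finrank_le_finrank_of_injective (f := f) fun x y h =>
    Subtype.ext (funext fun t => congrArg Subtype.val (congrFun h t))
  exact h.trans_eq (Module.finrank_pi_fintype ℂ)

lemma finrank_count {E : Type} [AddCommGroup E] [Module ℂ E] [FiniteDimensional ℂ E]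
    {C K : Submodule ℂ E} {I : Submodule ℂ V} (A : E →ₗ[ℂ] V) (hKC : K ≤ C) (hKA : K ≤ A.ker)
    (hI : I ≤ C.map A) : finrank ℂ K + finrank ℂ I ≤ finrank ℂ C := by
  have h1 := (A.comp C.subtype).finrank_range_add_finrank_ker
  rw [LinearMap.range_comp, Submodule.range_subtype] at h1
  have h2 := Submodule.finrank_mono hI
  let f : K →ₗ[ℂ] (A.comp C.subtype).ker :=
    (Submodule.inclusion hKC).codRestrict _ fun x => hKA x.2
  have h3 : finrank ℂ K ≤ finrank ℂ (A.comp C.subtype).ker :=
    LinearMap.finrank_le_finrank_of_injective (f := f) fun x y h =>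
      Subtype.ext (congrArg (fun z : (A.comp C.subtype).ker => ((z : C) : E)) h :)
  omega

/-- The trace pairing. -/
def pairing (r : ℕ) : Mat r →ₗ[ℂ] Dual ℂ (Mat r) :=
  LinearMap.mk₂ ℂ (fun x w => (x * w).trace) (fun a b c => by rw [add_mul, trace_add])
    (fun c a b => by rw [smul_mul_assoc, trace_smul]) (fun a b c => by rw [mul_add, trace_add])
    fun c a b => by rw [mul_smul_comm, trace_smul]

lemma pairing_bijective (r : ℕ) : Function.Bijective (pairing r) := by
  have hinj : Function.Injective (pairing r) := fun x y h =>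
    Matrix.ext_iff_trace_mul_right.2 fun w => DFunLike.congr_fun h w
  exact ⟨hinj, (LinearMap.injective_iff_surjective_of_finrank_eq_finrank
    Subspace.dual_finrank_eq.symm).1 hinj⟩

/-- The orthogonal for the trace pairing. -/
def orth (K : Submodule ℂ (Mat r)) : Submodule ℂ (Mat r) :=
  K.dualAnnihilator.comap (pairing r)

lemma mem_orth {K : Submodule ℂ (Mat r)} {w : Mat r} :
    w ∈ orth K ↔ ∀ u ∈ K, (w * u).trace = 0 := by
  simp [orth, Submodule.mem_dualAnnihilator, pairing]

lemma finrank_orth (K : Submodule ℂ (Mat r)) :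
    finrank ℂ (orth K) + finrank ℂ K = r ^ 2 := by
  let e : Mat r ≃ₗ[ℂ] Dual ℂ (Mat r) := LinearEquiv.ofBijective _ (pairing_bijective r)
  have he : orth K = K.dualAnnihilator.map e.symm.toLinearMap := by
    rw [Submodule.map_equiv_eq_comap_symm]; rfl
  rw [he, LinearEquiv.finrank_map_eq, add_comm, Subspace.finrank_add_finrank_dualAnnihilator_eq,
    Module.finrank_matrix, Fintype.card_fin, finrank_self, mul_one, sq]

/-- A subspace whose orthogonal is scalar contains all traceless matrices up to scalars. -/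
lemma exists_add_smul_one (hr : 0 < r) {I : Submodule ℂ (Mat r)}
    (h : ∀ x, (∀ y ∈ I, (x * y).trace = 0) → ∃ c : ℂ, x = c • 1) (M : Mat r) :
    ∃ y ∈ I, ∃ c : ℂ, M = y + c • 1 := by
  suffices hT : I ⊔ Submodule.span ℂ {(1 : Mat r)} = ⊤ by
    obtain ⟨y, hy, z, hz, rfl⟩ := Submodule.mem_sup.1 (hT.ge (Submodule.mem_top : M ∈ ⊤))
    obtain ⟨c, rfl⟩ := Submodule.mem_span_singleton.1 hz
    exact ⟨y, hy, c, rfl⟩
  have h0 : orth (I ⊔ Submodule.span ℂ {(1 : Mat r)}) = ⊥ := by
    rw [eq_bot_iff]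
    intro x hx
    rw [mem_orth] at hx
    obtain ⟨c, rfl⟩ := h x fun y hy => hx y (Submodule.mem_sup_left hy)
    have h1 := hx 1 (Submodule.mem_sup_right (Submodule.subset_span rfl))
    rw [mul_one, trace_smul, trace_one, Fintype.card_fin, smul_eq_mul, mul_eq_zero] at h1
    rcases h1 with h1 | h1
    · simp [h1]
    · exact absurd (Nat.cast_eq_zero.1 h1) hr.ne'
  have := finrank_orth (I ⊔ Submodule.span ℂ {(1 : Mat r)})
  rw [h0, finrank_bot, zero_add] at this
  refine Submodule.eq_top_of_finrank_eq ?_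
  rw [this, Module.finrank_matrix, Fintype.card_fin, finrank_self, mul_one, sq]

/-- The coordinate projection. -/
def dS (S : Finset (Fin r)) : Mat r := diagonal fun i => if i ∈ S then 1 else 0

lemma dS_mul_dS (S : Finset (Fin r)) : dS S * dS S = dS S := by
  rw [dS, diagonal_mul_diagonal]
  congr 1; funext i; split_ifs <;> simp

/-- Matrices from the coordinates in `S` to the others. -/
def homS (S : Finset (Fin r)) : Submodule ℂ (Mat r) :=
  (LinearMap.mulLeft ℂ (1 - dS S) ∘ₗ LinearMap.mulRight ℂ (dS S)).range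

lemma homS_spec {S : Finset (Fin r)} {M : Mat r} (hM : M ∈ homS S) :
    dS S * M = 0 ∧ M * dS S = M := by
  obtain ⟨X, rfl⟩ := hM
  simp only [LinearMap.comp_apply, LinearMap.mulLeft_apply, LinearMap.mulRight_apply]
  exact ⟨by rw [← mul_assoc, mul_sub, mul_one, dS_mul_dS, sub_self, zero_mul],
    by rw [mul_assoc, mul_assoc, dS_mul_dS]⟩

lemma le_finrank_homS {S : Finset (Fin r)} (h1 : S.Nonempty) (h2 : S ≠ Finset.univ) :
    r ≤ finrank ℂ (homS S) + 1 := by
  classical
  have hc : 0 < S.card := h1.card_pos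
  have hu : S.card < r := by
    simpa using Finset.card_lt_card (Finset.ssubset_univ_iff.2 h2)
  let v : (↥Sᶜ × ↥S) → homS S := fun p =>
    ⟨Matrix.single (p.1 : Fin r) (p.2 : Fin r) 1, Matrix.single (p.1 : Fin r) (p.2 : Fin r) 1, by
      ext a b
      simp only [LinearMap.comp_apply, LinearMap.mulLeft_apply, LinearMap.mulRight_apply, dS,
        sub_mul, one_mul, Matrix.sub_apply, Matrix.diagonal_mul, Matrix.mul_diagonal,
        Matrix.single_apply]
      by_cases hab : (p.1 : Fin r) = a ∧ (p.2 : Fin r) = b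
      · obtain ⟨rfl, rfl⟩ := hab
        simp [Finset.mem_compl.1 p.1.2]
      · simp [hab]⟩
  have hv : LinearIndependent ℂ v := by
    refine LinearIndependent.of_comp (homS S).subtype ?_
    have : (homS S).subtype ∘ v = (Matrix.stdBasis ℂ (Fin r) (Fin r)) ∘
        fun p : ↥Sᶜ × ↥S => ((p.1 : Fin r), (p.2 : Fin r)) := by
      funext p; simp [v, Matrix.stdBasis_eq_single]
    rw [this]
    exact (Matrix.stdBasis ℂ _ _).linearIndependent.comp _ fun p q h =>
      Prod.ext (Subtype.ext (congrArg Prod.fst h :)) (Subtype.ext (congrArg Prod.snd h :))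
  have h := hv.fintype_card_le_finrank
  rw [Fintype.card_prod, Fintype.card_coe, Fintype.card_coe, Finset.card_compl,
    Fintype.card_fin] at h
  obtain ⟨a, ha⟩ : ∃ a, S.card = a + 1 := ⟨S.card - 1, by omega⟩
  obtain ⟨b, hb⟩ : ∃ b, r - S.card = b + 1 := ⟨r - S.card - 1, by omega⟩
  rw [hb, ha] at h
  have : b + a + 1 ≤ (b + 1) * (a + 1) := by nlinarith
  omega

/-- A proper nonzero invariant subspace of a family is the range of a projection in some chart. -/
lemma exists_chart {κ : Type} (a : κ → Mat r) (W : Submodule ℂ (Fin r → ℂ)) (hW0 : W ≠ ⊥)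
    (hW1 : W ≠ ⊤) (hinv : ∀ t, ∀ v ∈ W, a t *ᵥ v ∈ W) :
    ∃ (S : Finset (Fin r)) (M : Mat r), S.Nonempty ∧ S ≠ Finset.univ ∧ M ∈ homS S ∧
      ∀ t, (1 - (dS S + M)) * a t * (dS S + M) = 0 := by
  classical
  set e : Fin r → Fin r → ℂ := fun i => Pi.single i 1 with he
  obtain ⟨κ', f, hf, hspan, hli⟩ := exists_linearIndependent' ℂ (fun i => W.mkQ (e i))
  have : Fintype κ' := Fintype.ofInjective f hf
  have htop : Submodule.span ℂ (Set.range (fun i => W.mkQ (e i))) = ⊤ := by
    rw [show (fun i => W.mkQ (e i)) = W.mkQ ∘ (Pi.basisFun ℂ (Fin r)) from funext fun i => by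
        simp [e, Pi.basisFun_apply],
      Set.range_comp, Submodule.span_image, (Pi.basisFun ℂ (Fin r)).span_eq, Submodule.map_top,
      Submodule.range_mkQ]
  let b : Basis κ' ℂ ((Fin r → ℂ) ⧸ W) := Basis.mk hli (by rw [hspan, htop])
  have hb : ∀ k, b k = W.mkQ (e (f k)) := fun k => Basis.mk_apply _ _ _
  let L : (Fin r → ℂ) →ₗ[ℂ] (Fin r → ℂ) :=
    Fintype.linearCombination ℂ (fun k => e (f k)) ∘ₗ b.equivFun.toLinearMap ∘ₗ W.mkQ
  have hL : ∀ v, L v = ∑ k, b.equivFun (W.mkQ v) k • e (f k) := fun v =>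
    Fintype.linearCombination_apply ℂ _ _
  have hLq : ∀ v, W.mkQ (L v) = W.mkQ v := fun v => by
    simp only [hL, map_sum, map_smul, ← hb]
    exact b.sum_equivFun _
  have hLW : ∀ v ∈ W, L v = 0 := fun v hv => by
    rw [hL, show W.mkQ v = 0 from (Submodule.Quotient.mk_eq_zero W).2 hv]
    simp
  have hLf : ∀ k, L (e (f k)) = e (f k) := fun k => by
    rw [hL, ← hb, Finset.sum_eq_single k] <;> simp +contextual [Finsupp.single_apply, eq_comm]
  set S : Finset (Fin r) := (Finset.univ.image f)ᶜ with hS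
  have hLS : ∀ v, ∀ i ∈ S, L v i = 0 := fun v i hi => by
    simp only [hS, Finset.mem_compl, Finset.mem_image, Finset.mem_univ, true_and, not_exists] at hi
    rw [hL, Finset.sum_apply]
    refine Finset.sum_eq_zero fun k _ => ?_
    simp [e, Ne.symm (hi k)]
  set P : Mat r := 1 - LinearMap.toMatrix' L with hP
  have hPv : ∀ v, P *ᵥ v = v - L v := fun v => by
    rw [hP, sub_mulVec, one_mulVec, LinearMap.toMatrix'_mulVec]
  have hPW : ∀ v, P *ᵥ v ∈ W := fun v => by
    rw [hPv, ← Submodule.Quotient.mk_eq_zero W, ← Submodule.mkQ_apply, map_sub, hLq, sub_self]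
  refine ⟨S, P - dS S, ?_, ?_, ⟨P, ?_⟩, fun t => ?_⟩
  · rw [Finset.nonempty_iff_ne_empty]
    intro h0
    refine hW0 ((Submodule.eq_bot_iff _).2 fun v hv => ?_)
    have hall : ∀ i, L (e i) = e i := fun i => by
      have : i ∈ Finset.univ.image f := by
        by_contra hi
        exact Finset.notMem_empty i (h0 ▸ Finset.mem_compl.2 hi)
      obtain ⟨k, -, rfl⟩ := Finset.mem_image.1 this
      exact hLf k
    have : L = LinearMap.id := (Pi.basisFun ℂ (Fin r)).ext fun i => by
      simpa [e, Pi.basisFun_apply] using hall i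
    simpa [this] using hLW v hv
  · intro hu
    refine hW1 (Submodule.eq_top_iff'.2 fun v => ?_)
    have : L v = 0 := funext fun i => hLS v i (hu ▸ Finset.mem_univ i)
    rw [← Submodule.Quotient.mk_eq_zero W, ← Submodule.mkQ_apply, ← hLq, this, map_zero]
  · ext i j
    simp only [LinearMap.comp_apply, LinearMap.mulLeft_apply, LinearMap.mulRight_apply, dS,
      sub_mul, one_mul, Matrix.sub_apply, Matrix.diagonal_mul, Matrix.mul_diagonal]
    have hPij : P i j = (1 : Mat r) i j - L (e j) i := by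
      rw [hP, Matrix.sub_apply, LinearMap.toMatrix'_apply]
    by_cases hj : j ∈ S
    · by_cases hi : i ∈ S
      · simp [hPij, hLS _ i hi, hi, hj, Matrix.diagonal_apply, Matrix.one_apply]
      · simp [hPij, hi, hj, Matrix.diagonal_apply, show i ≠ j from fun h => hi (h ▸ hj)]
    · obtain ⟨k, rfl⟩ : ∃ k, f k = j := by simpa [hS] using hj
      rw [hPij, hLf]
      simp [hj, e, Matrix.one_apply, Matrix.diagonal_apply, Pi.single_apply]
      intro h
      subst h
      simp [hj]
  · rw [add_sub_cancel]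
    refine Matrix.ext_of_mulVec_single fun j => ?_
    rw [zero_mulVec, ← mulVec_mulVec, ← mulVec_mulVec, sub_mulVec, one_mulVec, hPv (a t *ᵥ _),
      hLW _ (hinv t _ (hPW _)), sub_zero, sub_self]

end Vale.Agent.P002.Pair
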