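import Vale.Agent.P002.Surface.Basic

/-! The commutators of a centraliser of a matrix span all but at most `r` of its dimensions. -/

open Module Polynomial

namespace Vale.Agent.P002.Pair

open Vale.Agent.P002.Surface (Mat)

variable {V : Type} [AddCommGroup V] [Module ℂ V] [FiniteDimensional ℂ V]

/-- A complete system of idempotents commuting with `f`, each with a cyclic vector. -/
lemma exists_cyclic (f : End ℂ V) :
    ∃ (ι : Type) (_ : Fintype ι) (e : ι → End ℂ V) (v : ι → V),
      (∑ j, e j = 1) ∧ (∀ j, e j * e j = e j) ∧ (∀ j k, j ≠ k → e j * e k = 0) ∧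
      (∀ j, e j * f = f * e j) ∧ ∀ j w, ∃ q : ℂ[X], e j w = aeval f q (v j) := by
  classical
  obtain ⟨ι, hι, p, -, n, ⟨ψ⟩⟩ := equiv_directSum_of_isTorsion
    (M := AEval' f) (R := ℂ[X]) (AEval.isTorsion_of_finiteDimensional ℂ V f)
  let o : V ≃ₗ[ℂ] AEval' f := AEval'.of f
  let P : ι → (AEval' f →ₗ[ℂ[X]] AEval' f) := fun j =>
    ψ.symm.toLinearMap ∘ₗ DirectSum.lof ℂ[X] ι (fun i => ℂ[X] ⧸ ℂ[X] ∙ p i ^ n i) j ∘ₗ
      DirectSum.component ℂ[X] ι (fun i => ℂ[X] ⧸ ℂ[X] ∙ p i ^ n i) j ∘ₗ ψ.toLinearMap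
  let e : ι → End ℂ V := fun j => o.symm.toLinearMap ∘ₗ (P j).restrictScalars ℂ ∘ₗ o.toLinearMap
  let v : ι → V := fun j => o.symm (ψ.symm (DirectSum.lof ℂ[X] ι
    (fun i => ℂ[X] ⧸ ℂ[X] ∙ p i ^ n i) j (Submodule.Quotient.mk 1)))
  refine ⟨ι, hι, e, v, ?_, fun j => ?_, fun j k hjk => ?_, fun j => ?_, fun j w => ?_⟩
  · refine LinearMap.ext fun w => o.injective (ψ.injective ?_)
    simp only [LinearMap.sum_apply, map_sum, e, P, LinearMap.comp_apply,
      LinearMap.restrictScalars_apply, LinearEquiv.coe_coe, LinearEquiv.apply_symm_apply,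
      Module.End.one_apply]
    refine DirectSum.ext_component ℂ[X] fun i => ?_
    rw [map_sum, Finset.sum_eq_single i]
    · exact DirectSum.component.lof_self ℂ[X] _ _
    · intro k _ hk
      rw [DirectSum.component.of, dif_neg hk]
    · simp
  · refine LinearMap.ext fun w => ?_
    simp [e, P, Module.End.mul_apply, DirectSum.component.lof_self]
  · refine LinearMap.ext fun w => ?_
    simp [e, P, Module.End.mul_apply, DirectSum.component.of, hjk, Ne.symm hjk]
  · refine LinearMap.ext fun w => o.injective ?_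
    simp only [Module.End.mul_apply, e, LinearMap.comp_apply, LinearMap.restrictScalars_apply,
      LinearEquiv.coe_coe, LinearEquiv.apply_symm_apply]
    have h : ∀ u : V, o (f u) = (X : ℂ[X]) • o u := fun u => (AEval.X_smul_of f u).symm
    rw [h, map_smul, h, LinearEquiv.apply_symm_apply]
  · obtain ⟨q, hq⟩ := Submodule.Quotient.mk_surjective _
      (DirectSum.component ℂ[X] ι (fun i => ℂ[X] ⧸ ℂ[X] ∙ p i ^ n i) j (ψ (o w)))
    refine ⟨q, o.injective ?_⟩
    simp only [e, P, v, LinearMap.comp_apply, LinearMap.restrictScalars_apply,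
      LinearEquiv.coe_coe, LinearEquiv.apply_symm_apply]
    rw [show o (aeval f q (o.symm (ψ.symm (DirectSum.lof ℂ[X] ι
      (fun i => ℂ[X] ⧸ ℂ[X] ∙ p i ^ n i) j (Submodule.Quotient.mk 1))))) = q • o (o.symm _) from
        AEval.of_aeval_smul f q _, LinearEquiv.apply_symm_apply, ← map_smul, ← map_smul, ← hq,
      ← Submodule.Quotient.mk_smul, smul_eq_mul, mul_one]

variable (f : End ℂ V)

/-- The centraliser of `f`. -/
def centr : Submodule ℂ (End ℂ V) := (LinearMap.mulLeft ℂ f - LinearMap.mulRight ℂ f).ker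

lemma mem_centr {x : End ℂ V} : x ∈ centr f ↔ f * x = x * f := by
  simp [centr, LinearMap.mem_ker, sub_eq_zero]

/-- The span of the commutators of the centraliser. -/
def derived : Submodule ℂ (End ℂ V) :=
  Submodule.span ℂ {w | ∃ x ∈ centr f, ∃ y ∈ centr f, w = x * y - y * x}

theorem finrank_centr_le : finrank ℂ (centr f) ≤ finrank ℂ (derived f) + finrank ℂ V := by
  classical
  obtain ⟨ι, hι, e, v, hsum, hidem, horth, hcomm, hcyc⟩ := exists_cyclic f
  let Θ : centr f →ₗ[ℂ] V :=
    { toFun := fun φ => ∑ j, e j ((φ : End ℂ V) (e j (v j)))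
      map_add' := fun a b => by simp [Finset.sum_add_distrib]
      map_smul' := fun c a => by simp [Finset.smul_sum] }
  have hc : ∀ j, e j ∈ centr f := fun j => (mem_centr f).2 (hcomm j).symm
  have hmul : ∀ {x y}, x ∈ centr f → y ∈ centr f → x * y ∈ centr f := fun {x y} hx hy => by
    rw [mem_centr] at hx hy ⊢
    rw [← mul_assoc, hx, mul_assoc, hy, mul_assoc]
  have hker : ∀ φ : centr f, Θ φ = 0 → (φ : End ℂ V) ∈ derived f := by
    rintro ⟨φ, hφ⟩ h0
    have hdiag : ∀ j, e j * φ * e j = 0 := by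
      intro j
      have hj : e j (φ (e j (v j))) = 0 := by
        have := congrArg (e j) h0
        rw [map_zero] at this
        rw [← this]
        show _ = e j (∑ k, e k (φ (e k (v k))))
        rw [map_sum, Finset.sum_eq_single j]
        · exact (DFunLike.congr_fun (hidem j) _).symm
        · intro k _ hk; exact DFunLike.congr_fun (horth j k hk.symm) _
        · simp
      refine LinearMap.ext fun w => ?_
      obtain ⟨q, hq⟩ := hcyc j w
      have hw : e j w = e j (e j w) := (DFunLike.congr_fun (hidem j) w).symm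
      have hC : Commute (e j * φ * e j) (aeval f q) :=
        Algebra.commute_of_mem_adjoin_singleton_of_commute (aeval_mem_adjoin_singleton ℂ f)
          ((mem_centr f).1 (hmul (hmul (hc j) hφ) (hc j))).symm
      show (e j * φ) (e j w) = 0
      rw [hw, hq, ← Module.End.mul_apply (e j * φ) (e j)]
      rw [← Module.End.mul_apply _ (aeval f q), hC.eq, Module.End.mul_apply]
      exact (congrArg _ hj).trans (map_zero _)
    have hexp : φ = ∑ j, ∑ k, e j * φ * e k := by
      simp only [← Finset.mul_sum, ← Finset.sum_mul, hsum, one_mul, mul_one]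
    show φ ∈ derived f
    rw [hexp]
    refine Submodule.sum_mem _ fun j _ => Submodule.sum_mem _ fun k _ => ?_
    by_cases hjk : j = k
    · subst hjk; rw [hdiag]; exact zero_mem _
    · refine Submodule.subset_span ⟨e j, hc j, _, hmul (hmul (hc j) hφ) (hc k), ?_⟩
      rw [← mul_assoc, ← mul_assoc, hidem, mul_assoc _ (e k) (e j), horth k j (Ne.symm hjk),
        mul_zero, sub_zero]
  have h1 := Θ.finrank_range_add_finrank_ker
  have h2 := Submodule.finrank_le Θ.range
  let ι' : Θ.ker →ₗ[ℂ] derived f :=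
    ((centr f).subtype ∘ₗ Θ.ker.subtype).codRestrict _ fun φ => hker φ.1 φ.2
  have h3 : finrank ℂ Θ.ker ≤ finrank ℂ (derived f) :=
    LinearMap.finrank_le_finrank_of_injective (f := ι') fun a b h =>
      Subtype.ext (Subtype.ext (congrArg Subtype.val h :))
  omega

/-- The centraliser of a matrix. -/
def cen {r : ℕ} (a : Mat r) : Submodule ℂ (Mat r) :=
  (LinearMap.mulLeft ℂ a - LinearMap.mulRight ℂ a).ker

lemma mem_cen {r : ℕ} {a x : Mat r} : x ∈ cen a ↔ a * x = x * a := by
  simp [cen, LinearMap.mem_ker, sub_eq_zero]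

/-- The span of the commutators of the centraliser of a matrix. -/
def der {r : ℕ} (a : Mat r) : Submodule ℂ (Mat r) :=
  Submodule.span ℂ {w | ∃ x ∈ cen a, ∃ y ∈ cen a, w = x * y - y * x}

theorem finrank_cen_le {r : ℕ} (a : Mat r) : finrank ℂ (cen a) ≤ finrank ℂ (der a) + r := by
  let T : Mat r ≃ₐ[ℂ] End ℂ (Fin r → ℂ) := Matrix.toLinAlgEquiv'
  have hc : (cen a).map T.toLinearEquiv.toLinearMap = centr (T a) := by
    ext y
    obtain ⟨x, rfl⟩ := T.surjective y
    rw [mem_centr, ← map_mul, ← map_mul, T.injective.eq_iff, Submodule.mem_map]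
    exact ⟨fun ⟨z, hz, e⟩ => (show z = x from T.injective e) ▸ mem_cen.1 hz,
      fun h => ⟨x, mem_cen.2 h, rfl⟩⟩
  have hd : derived (T a) ≤ (der a).map T.toLinearEquiv.toLinearMap := by
    refine Submodule.span_le.2 ?_
    rintro w ⟨x, hx, y, hy, rfl⟩
    rw [← hc] at hx hy
    obtain ⟨x, hx, rfl⟩ := hx
    obtain ⟨y, hy, rfl⟩ := hy
    exact ⟨x * y - y * x, Submodule.subset_span ⟨x, hx, y, hy, rfl⟩, by simp⟩
  have h := finrank_centr_le (T a)
  rw [← hc, LinearEquiv.finrank_map_eq, Module.finrank_pi, Fintype.card_fin] at h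
  have := (Submodule.finrank_mono hd).trans_eq (LinearEquiv.finrank_map_eq _ _)
  omega

end Vale.Agent.P002.Pair
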