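import Mathlib

/-! Hausdorff dimension of zero sets and the local equations of a rank stratum. -/

open Filter Topology Module Set
open scoped ENNReal NNReal

namespace Vale.Agent.P002.Pair

variable {E F V : Type*} [NormedAddCommGroup E] [NormedSpace ℂ E] [FiniteDimensional ℂ E]
  [NormedAddCommGroup F] [NormedSpace ℂ F] [FiniteDimensional ℂ F]
  [NormedAddCommGroup V] [NormedSpace ℂ V] [FiniteDimensional ℂ V]

/-- A set which is locally of dimension at most `d` has dimension at most `d`. -/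
lemma dimH_le_of_local {X : Type*} [EMetricSpace X] [SecondCountableTopology X] {S : Set X}
    {d : ℝ≥0∞} (h : ∀ x ∈ S, ∃ U ∈ 𝓝 x, dimH (S ∩ U) ≤ d) : dimH S ≤ d := by
  by_contra hlt
  obtain ⟨x, hx, hxt⟩ := exists_mem_nhdsWithin_lt_dimH_of_lt_dimH (not_le.1 hlt)
  obtain ⟨U, hU, hd⟩ := h x hx
  exact absurd (hxt _ (inter_mem_nhdsWithin S hU)) (not_lt.2 hd)

/-- The zero set of a map with derivative `A` is locally of dimension at most that of `ker A`. -/
lemma exists_small_nhds {G : E → F} {A : E →L[ℂ] F} {q : E} (hG : HasStrictFDerivAt G A q) :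
    ∃ U ∈ 𝓝 q, dimH ({x | G x = G q} ∩ U) ≤ ((2 * finrank ℂ A.ker : ℕ) : ℝ≥0∞) := by
  obtain ⟨L₀, hL₀⟩ := A.ker.subtype.exists_leftInverse_of_injective A.ker.ker_subtype
  let L : E →L[ℂ] A.ker := LinearMap.toContinuousLinearMap L₀
  have hker : (A.prod L).toLinearMap.ker = ⊥ := by
    rw [LinearMap.ker_eq_bot']
    intro w hw
    have h1 : A w = 0 := congrArg Prod.fst hw
    have h2 : L₀ w = 0 := congrArg Prod.snd hw
    exact congrArg Subtype.val ((LinearMap.congr_fun hL₀ ⟨w, h1⟩).symm.trans h2)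
  obtain ⟨B₀, hB₀⟩ := LinearMap.exists_leftInverse_of_injective _ hker
  let B : F × A.ker →L[ℂ] E := LinearMap.toContinuousLinearMap B₀
  have hd : HasStrictFDerivAt (fun x => B (G x, L x)) (ContinuousLinearMap.id ℂ E) q :=
    (B.hasStrictFDerivAt.comp q (hG.prodMk L.hasStrictFDerivAt)).congr_fderiv
      (ContinuousLinearMap.ext fun w => LinearMap.congr_fun hB₀ w)
  have hev := hd.isLittleO.bound (show (0 : ℝ) < 1 / 2 by norm_num)
  rw [nhds_prod_eq] at hev
  obtain ⟨pa, hpa, pb, hpb, hab⟩ := eventually_prod_iff.1 hev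
  refine ⟨{x | pa x ∧ pb x}, hpa.and hpb, ?_⟩
  set S : Set E := {x | G x = G q} ∩ {x | pa x ∧ pb x}
  have hanti : AntilipschitzWith (2 * ‖B‖₊) (fun x : S => L (x : E)) := by
    refine AntilipschitzWith.of_le_mul_dist fun x y => ?_
    have hb : ‖B (G x, L x) - B (G y, L y) - ((x : E) - y)‖ ≤ 1 / 2 * ‖(x : E) - y‖ :=
      hab x.2.2.1 y.2.2.2
    rw [← map_sub, Prod.mk_sub_mk, show G x = G y from x.2.1.trans y.2.1.symm, sub_self] at hb
    rw [Subtype.dist_eq, dist_eq_norm, dist_eq_norm]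
    have h2 := B.le_opNorm ((0 : F), L (x : E) - L (y : E))
    rw [Prod.norm_mk, norm_zero, max_eq_right (norm_nonneg _)] at h2
    have h3 := norm_sub_norm_le ((x : E) - y) (B ((0 : F), L (x : E) - L (y : E)))
    rw [norm_sub_rev ((x : E) - y) (B _)] at h3
    push_cast
    linarith
  calc dimH S = dimH ((Subtype.val : S → E) '' univ) := by rw [image_univ, Subtype.range_coe]
    _ = dimH (univ : Set S) := isometry_subtype_coe.dimH_image _
    _ ≤ dimH ((fun x : S => L (x : E)) '' univ) := hanti.le_dimH_image _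
    _ ≤ dimH (univ : Set A.ker) := dimH_mono (subset_univ _)
    _ = (finrank ℝ A.ker : ℝ≥0∞) := Real.dimH_univ_eq_finrank _
    _ = _ := by rw [finrank_real_of_complex]

/-- The zero set of a submersion has, near the point, dimension at least that of the kernel. -/
lemma exists_large_nhds {G : E → F} {A : E →L[ℂ] F} {p : E} (hG : HasStrictFDerivAt G A p)
    (hA : Function.Surjective A) :
    ∃ W, IsOpen W ∧ p ∈ W ∧ ∀ W', IsOpen W' → W' ⊆ W → ∀ q ∈ W', G q = G p →
      ((2 * finrank ℂ A.ker : ℕ) : ℝ≥0∞) ≤ dimH ({x | G x = G p} ∩ W') := by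
  obtain ⟨L₀, hL₀⟩ := A.ker.subtype.exists_leftInverse_of_injective A.ker.ker_subtype
  let L : E →L[ℂ] A.ker := LinearMap.toContinuousLinearMap L₀
  have hL : ∀ v : A.ker, L₀ (v : E) = v := fun v => LinearMap.congr_fun hL₀ v
  have hbij : Function.Bijective (A.prod L).toLinearMap := by
    refine ⟨fun w w' hw => sub_eq_zero.1 ?_, fun y => ?_⟩
    · have h1 : A (w - w') = 0 := by
        rw [map_sub]; exact sub_eq_zero.2 (congrArg Prod.fst hw)
      have h2 : L₀ (w - w') = 0 := by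
        rw [map_sub]; exact sub_eq_zero.2 (congrArg Prod.snd hw)
      exact congrArg Subtype.val ((hL ⟨_, h1⟩).symm.trans h2)
    · obtain ⟨x, hx⟩ := hA y.1
      refine ⟨x + ((y.2 - L₀ x : A.ker) : E), Prod.ext ?_ ?_⟩
      · show A _ = _
        rw [map_add, show A ((y.2 - L₀ x : A.ker) : E) = 0 from (y.2 - L₀ x).2, add_zero, hx]
      · show L₀ _ = _
        rw [map_add, hL, add_sub_cancel]
  let e : E ≃L[ℂ] F × A.ker := (LinearEquiv.ofBijective _ hbij).toContinuousLinearEquiv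
  have hs : HasStrictFDerivAt (fun x => (G x, L x)) (e : E →L[ℂ] F × A.ker) p :=
    (hG.prodMk L.hasStrictFDerivAt).congr_fderiv (ContinuousLinearMap.ext fun w => rfl)
  set h := hs.toOpenPartialHomeomorph _
  have hcoe : (h : E → F × A.ker) = fun x => (G x, L x) := hs.toOpenPartialHomeomorph_coe
  refine ⟨h.source, h.open_source, hs.mem_toOpenPartialHomeomorph_source,
    fun W' hW' hsub q hq hGq => ?_⟩
  have hopen : IsOpen ((fun x => (G x, L x)) '' W') :=
    hcoe ▸ h.isOpen_image_of_subset_source hW' hsub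
  set T : Set A.ker := {v | (G p, v) ∈ (fun x => (G x, L x)) '' W'}
  have hT : T ∈ 𝓝 (L q) :=
    (hopen.preimage (Continuous.prodMk_right (G p))).mem_nhds ⟨q, hq, Prod.ext hGq rfl⟩
  calc ((2 * finrank ℂ A.ker : ℕ) : ℝ≥0∞) = (finrank ℝ A.ker : ℝ≥0∞) := by
        rw [finrank_real_of_complex]
    _ = dimH T := (Real.dimH_of_mem_nhds hT).symm
    _ ≤ dimH (L '' ({x | G x = G p} ∩ W')) := by
        refine dimH_mono fun v hv => ?_
        obtain ⟨x, hx, hxv⟩ := hv
        exact ⟨x, ⟨congrArg Prod.fst hxv, hx⟩, congrArg Prod.snd hxv⟩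
    _ ≤ _ := L.lipschitz.dimH_image_le _

/-- Near `T₀` the dimension of the kernel does not grow, and where it stays the same some
equations with known derivative hold. -/
lemma exists_rank_equation (T₀ : V →L[ℂ] V) :
    ∃ U ∈ 𝓝 T₀, ∃ (Ψ : (V →L[ℂ] V) → (V →L[ℂ] V)) (Ψ' : (V →L[ℂ] V) →L[ℂ] (V →L[ℂ] V)),
      HasStrictFDerivAt Ψ Ψ' T₀ ∧ Ψ T₀ = 0 ∧
      (∀ T ∈ U, finrank ℂ T.ker ≤ finrank ℂ T₀.ker ∧
        (finrank ℂ T.ker = finrank ℂ T₀.ker → Ψ T = 0)) ∧
      ∀ H, Ψ' H = 0 → ∀ v, T₀ v = 0 → H v ∈ T₀.range := by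
  set t : V →ₗ[ℂ] V := T₀.toLinearMap with ht
  obtain ⟨s, hs⟩ := t.rangeRestrict.exists_rightInverse_of_surjective t.range_rangeRestrict
  obtain ⟨pr, hpr⟩ := t.range.subtype.exists_leftInverse_of_injective t.range.ker_subtype
  let S : V →L[ℂ] V := LinearMap.toContinuousLinearMap (s.comp pr)
  set π : V →L[ℂ] V := 1 - S * T₀
  have hTST : T₀ * S * T₀ = T₀ := by
    refine ContinuousLinearMap.ext fun v => ?_
    have e1 : pr (t v) = t.rangeRestrict v := LinearMap.congr_fun hpr (t.rangeRestrict v)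
    show T₀ (s (pr (t v))) = T₀ v
    rw [e1]
    exact congrArg Subtype.val (LinearMap.congr_fun hs (t.rangeRestrict v))
  have hπ0 : T₀ * π = 0 := by rw [mul_sub, mul_one, ← mul_assoc, hTST, sub_self]
  have hπid : ∀ v, T₀ v = 0 → π v = v := fun v hv => by
    show v - S (T₀ v) = v
    rw [hv, map_zero, sub_zero]
  let Ψ : (V →L[ℂ] V) → (V →L[ℂ] V) := fun T => T * Ring.inverse (1 + S * (T - T₀)) * π
  have hd1 : HasStrictFDerivAt (fun T : V →L[ℂ] V => 1 + S * (T - T₀))
      (ContinuousLinearMap.mul ℂ (V →L[ℂ] V) S) T₀ := by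
    have := ((ContinuousLinearMap.mul ℂ (V →L[ℂ] V) S).hasStrictFDerivAt (x := T₀)).add_const
      (1 - S * T₀)
    refine this.congr_of_eventuallyEq (Eventually.of_forall fun T => ?_)
    show S * T + (1 - S * T₀) = 1 + S * (T - T₀)
    rw [mul_sub]; abel
  have hd2 : HasStrictFDerivAt (fun T : V →L[ℂ] V => Ring.inverse (1 + S * (T - T₀)))
      (-(ContinuousLinearMap.mul ℂ (V →L[ℂ] V) S)) T₀ := by
    have h1 : ((1 : (V →L[ℂ] V)ˣ) : V →L[ℂ] V) = 1 + S * (T₀ - T₀) := by simp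
    have := (h1 ▸ hasStrictFDerivAt_ringInverse (1 : (V →L[ℂ] V)ˣ) :
      HasStrictFDerivAt Ring.inverse _ (1 + S * (T₀ - T₀))).comp T₀ hd1
    refine this.congr_fderiv (ContinuousLinearMap.ext fun H => ?_)
    simp
  have hd3 := ((hasStrictFDerivAt_id T₀).mul' hd2).mul_const' π
  have hev : ∀ᶠ T in 𝓝 T₀, IsUnit (1 + S * (T - T₀)) := by
    have hc : Tendsto (fun T : V →L[ℂ] V => 1 + S * (T - T₀)) (𝓝 T₀) (𝓝 1) := by
      simpa using hd1.continuousAt.tendsto
    exact hc (Units.isOpen.mem_nhds isUnit_one)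
  refine ⟨_, hev, Ψ, _, hd3, ?_, fun T hT => ?_, fun H hH v hv => ?_⟩
  · simp [Ψ, hπ0]
  · have hT' : IsUnit (1 + S * (T - T₀)) := hT
    have hinv := Ring.inverse_mul_cancel _ hT'
    set u := Ring.inverse (1 + S * (T - T₀))
    have key : ∀ v, T v = 0 → u (π v) = v := fun v hv => by
      have e : (1 + S * (T - T₀)) v = π v := by
        show v + S (T v - T₀ v) = v - S (T₀ v)
        rw [hv, zero_sub, map_neg, sub_eq_add_neg]
      rw [← e]
      exact DFunLike.congr_fun hinv v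
    have hmem : ∀ v, π v ∈ T₀.ker := fun v => DFunLike.congr_fun hπ0 v
    let f : T.ker →ₗ[ℂ] T₀.ker := (π.toLinearMap.comp T.ker.subtype).codRestrict _ fun v => hmem _
    have hf : Function.Injective f := fun v w h => Subtype.ext <| by
      rw [← key v v.2, ← key w w.2]
      exact congrArg u (congrArg Subtype.val h)
    refine ⟨LinearMap.finrank_le_finrank_of_injective hf, fun he => ?_⟩
    refine ContinuousLinearMap.ext fun v => ?_
    obtain ⟨w, hw⟩ := (LinearMap.injective_iff_surjective_of_finrank_eq_finrank he).1 hf ⟨π v, hmem v⟩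
    show T (u (π v)) = 0
    rw [← show π w = π v from congrArg Subtype.val hw, key w w.2]
    exact w.2
  · have h : (T₀ * -(S * H) + H * Ring.inverse (1 + S * (T₀ - T₀))) * π = 0 := hH
    rw [sub_self, mul_zero, add_zero, Ring.inverse_one, mul_one] at h
    have h' : T₀ (-(S (H (π v)))) + H (π v) = 0 := DFunLike.congr_fun h v
    rw [hπid v hv, map_neg, neg_add_eq_zero] at h'
    exact ⟨S (H v), h'⟩

end Vale.Agent.P002.Pair
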