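import Vale.Agent.P002.General.Space

/-! The relation in slot coordinates, its derivative along one slot, and the annihilator of the
image of the derivative. -/

open Matrix Module

namespace Vale.Agent.P002.Pair

open Vale.Agent.P002.Surface (Mat Tup comm rel PF PMap mul_adj adj_mul det_adj hom_comm_det
  hasDerivAt_det_one_add hasDerivAt_line hasDerivAt_adjugate_line)
open Vale.Agent.P002.General (bd ofFn_prod_update det_listProd)

attribute [local instance] Matrix.linftyOpNormedAddCommGroup Matrix.linftyOpNormedSpace
  Matrix.linftyOpNormedRing Matrix.linftyOpNormedAlgebra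

variable {g r s : ℕ}

/-- The slots: two for each handle and one conjugator for each puncture. -/
abbrev Idx (g s : ℕ) : Type := (Fin g × Bool) ⊕ Fin s

/-- All tuples. -/
abbrev Amb (g s r : ℕ) : Type := Idx g s → Mat r

/-- The slot of the first matrix of a handle. -/
abbrev sa (j : Fin g) : Idx g s := Sum.inl (j, false)

/-- The slot of the second matrix of a handle. -/
abbrev sb (j : Fin g) : Idx g s := Sum.inl (j, true)

/-- The handles. -/
def hand (q : Amb g s r) : Tup g r := fun j => (q (sa j), q (sb j))

/-- The conjugators. -/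
def conjs (q : Amb g s r) : Fin s → Mat r := fun l => q (Sum.inr l)

variable (J : Fin s → Mat r)

/-- The left-hand side of the relation. -/
def relF (q : Amb g s r) : Mat r := rel (hand q) * (List.ofFn (bd J (conjs q))).prod

/-- The product of the first `n` commutators. -/
def preH (q : Amb g s r) (n : ℕ) : Mat r := ((List.ofFn fun j => comm (hand q j)).take n).prod

/-- The product of all commutators and the first `n` boundary matrices. -/
def preB (q : Amb g s r) (n : ℕ) : Mat r :=
  rel (hand q) * ((List.ofFn (bd J (conjs q))).take n).prod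

lemma PMap.relF : PMap (fun q : Amb g s r => relF J q) := by
  refine PMap.mul (φ := fun q : Amb g s r => rel (hand q)) ?_ ?_
  · exact Surface.PMap.rel.comp (PMap.pi fun j => (PMap.proj (sa j)).prodMk (PMap.proj (sb j)))
  · have : (fun q : Amb g s r => (List.ofFn (bd J (conjs q))).prod) =
        fun q => ((List.finRange s).map fun i => bd J (conjs q) i).prod := by
      funext q; rw [List.ofFn_eq_map]
    rw [this]
    exact PMap.listProd _ _ fun i _ =>
      ((PMap.proj (Sum.inr i)).mul (PMap.const _)).mul (PMap.proj (Sum.inr i)).adjugate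

lemma hasFDerivAt_relF (q : Amb g s r) :
    HasStrictFDerivAt (relF J) (fderiv ℂ (relF J) q) q :=
  (PMap.relF J).contDiff.contDiffAt.hasStrictFDerivAt one_ne_zero

/-- The derivative of the relation along a slot is computed on a line. -/
lemma fderiv_single (q : Amb g s r) (t : Idx g s) (Y D : Mat r)
    (h : HasDerivAt (fun z : ℂ => relF J (Function.update q t (q t * (1 + z • Y)))) D 0) :
    fderiv ℂ (relF J) q (Pi.single t (q t * Y)) = D := by
  have hl : HasDerivAt (fun z : ℂ => q + z • (Pi.single t (q t * Y) : Amb g s r))
      (Pi.single t (q t * Y)) 0 := by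
    have := ((hasDerivAt_id (0 : ℂ)).smul_const
      (Pi.single t (q t * Y) : Amb g s r)).const_add q
    simp only [id, one_smul] at this
    exact this
  have h0 : HasFDerivAt (relF J) (fderiv ℂ (relF J) q)
      (q + (0 : ℂ) • (Pi.single t (q t * Y) : Amb g s r)) := by
    simpa using (hasFDerivAt_relF J q).hasFDerivAt
  refine (h0.comp_hasDerivAt (0 : ℂ) hl).unique ?_
  refine h.congr_of_eventuallyEq (Filter.Eventually.of_forall fun z => ?_)
  show relF J _ = relF J _
  congr 1
  funext t'
  by_cases ht : t' = t
  · subst ht; simp [mul_add]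
  · simp [Function.update_of_ne ht, Pi.single_eq_of_ne ht]

lemma hand_update (q : Amb g s r) (j : Fin g) (v : Mat r) :
    hand (Function.update q (sa j) v) = Function.update (hand q) j (v, q (sb j)) ∧
    hand (Function.update q (sb j) v) = Function.update (hand q) j (q (sa j), v) ∧
    conjs (Function.update q (sa j) v) = conjs q ∧
    conjs (Function.update q (sb j) v) = conjs q := by
  refine ⟨funext fun i => ?_, funext fun i => ?_, funext fun i => ?_, funext fun i => ?_⟩
  · by_cases h : i = j
    · subst h; simp [hand, sa, sb]
    · simp [hand, sa, sb, h]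
  · by_cases h : i = j
    · subst h; simp [hand, sa, sb]
    · simp [hand, sa, sb, h]
  · simp [conjs, sa]
  · simp [conjs, sb]

lemma relF_update_handle (q : Amb g s r) (j : Fin g) (P : Mat r × Mat r) :
    rel (Function.update (hand q) j P) * (List.ofFn (bd J (conjs q))).prod =
      preH q j * comm P * (((List.ofFn fun i => comm (hand q i)).drop (j + 1)).prod *
        (List.ofFn (bd J (conjs q))).prod) := by
  have : (fun i => comm (Function.update (hand q) j P i)) =
      Function.update (fun i => comm (hand q i)) j (comm P) := by
    funext i; by_cases h : i = j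
    · subst h; simp
    · simp [h]
  rw [rel, this, ofFn_prod_update, preH]
  simp only [mul_assoc]

lemma relF_update_conj (q : Amb g s r) (l : Fin s) (k : Mat r) :
    relF J (Function.update q (Sum.inr l) k) = preB J q l * (k * J l * k.adjugate) *
      ((List.ofFn (bd J (conjs q))).drop (l + 1)).prod := by
  have h1 : hand (Function.update q (Sum.inr l) k) = hand q := by
    funext i; simp [hand, sa, sb]
  have h2 : bd J (conjs (Function.update q (Sum.inr l) k)) =
      Function.update (bd J (conjs q)) l (k * J l * k.adjugate) := by
    funext i; by_cases h : i = l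
    · subst h; simp [bd, conjs]
    · simp [bd, conjs, h]
  rw [relF, h1, h2, ofFn_prod_update, preB]
  simp only [mul_assoc]

/-- All determinants are one and the relation holds. -/
def Sol : Set (Amb g s r) := {q | (∀ t, (q t).det = 1) ∧ relF J q = 1}

variable {J} {q : Amb g s r}

lemma det_preH (hq : ∀ t, (q t).det = 1) (n : ℕ) : (preH q n).det = 1 := by
  rw [preH, List.ofFn_eq_map, ← List.map_take]
  exact det_listProd _ _ fun j _ => hom_comm_det (hq _) (hq _)

lemma det_preB (hJ : ∀ i, (J i).det = 1) (hq : ∀ t, (q t).det = 1) (n : ℕ) :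
    (preB J q n).det = 1 := by
  rw [preB, det_mul, rel, List.ofFn_eq_map,
    det_listProd _ (fun j => Surface.comm (hand q j)) fun j _ => hom_comm_det (hq _) (hq _), one_mul,
    List.ofFn_eq_map,
    ← List.map_take]
  exact det_listProd _ _ fun i _ => by
    simp only [bd, conjs, det_mul, hJ i, det_adj (hq (Sum.inr i)), hq (Sum.inr i), mul_one]

lemma det_relF (hJ : ∀ i, (J i).det = 1) (hq : ∀ t, (q t).det = 1) : (relF J q).det = 1 := by
  have := det_preB hJ hq s
  rwa [preB, List.take_of_length_le (by simp)] at this

lemma adj_adj {M : Mat r} (hM : M.det = 1) : M.adjugate.adjugate = M :=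
  left_inv_eq_right_inv (adj_mul (det_adj hM)) (adj_mul hM)

/-- Derivative along the first slot of a handle. -/
lemma deriv_sa (hq : q ∈ Sol J) (j : Fin g) {Y : Mat r}
    (hY : Y.trace = 0) :
    fderiv ℂ (relF J) q (Pi.single (sa j) (q (sa j) * Y)) = preH q j *
      (q (sa j) * Y * (q (sa j)).adjugate -
        q (sa j) * q (sb j) * Y * (q (sb j)).adjugate * (q (sa j)).adjugate) *
      (preH q j).adjugate := by
  refine fderiv_single J q _ _ _ ?_
  set a := q (sa j) with hadef
  set b := q (sb j) with hbdef
  set P := preH q j
  set post := ((List.ofFn fun i => comm (hand q i)).drop (j + 1)).prod *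
    (List.ofFn (bd J (conjs q))).prod with hpost
  have ha : a.det = 1 := hq.1 _
  have hb : b.det = 1 := hq.1 _
  have hP : P.det = 1 := det_preH hq.1 _
  have h1 : P * comm (a, b) * post = 1 := by
    rw [← relF_update_handle J q j (a, b), show (a, b) = hand q j from rfl,
      Function.update_eq_self]
    exact hq.2
  have hpe : post = (b * a * b.adjugate * a.adjugate) * P.adjugate := by
    have hc : (P * comm (a, b)).det = 1 := by rw [det_mul, hP, hom_comm_det ha hb, one_mul]
    rw [← left_inv_eq_right_inv (adj_mul hc) h1]
    simp only [Surface.comm, adjugate_mul_distrib, adj_adj ha, adj_adj hb, mul_assoc]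
  have hd := ((((hasDerivAt_line a Y).mul_const b).fun_mul
    (hasDerivAt_adjugate_line a hY)).mul_const b.adjugate).const_mul P |>.mul_const post
  have e : (fun z : ℂ => relF J (Function.update q (sa j) (a * (1 + z • Y)))) =
      fun z => P * (a * (1 + z • Y) * b * (a * (1 + z • Y)).adjugate * b.adjugate) * post :=
    funext fun z => by
      rw [relF, (hand_update q j _).1, (hand_update q j _).2.2.1, relF_update_handle]
      rfl
  rw [e]
  refine hd.congr_deriv ?_
  simp only [zero_smul, add_zero, mul_one, hpe, sub_mul, mul_sub, add_mul, mul_add, mul_neg,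
    neg_mul, mul_assoc]
  rw [← mul_assoc b.adjugate b, adj_mul hb, one_mul, ← mul_assoc a.adjugate a, adj_mul ha, one_mul,
    ← mul_assoc b b.adjugate, mul_adj hb, one_mul, ← sub_eq_add_neg]

/-- Derivative along the second slot of a handle. -/
lemma deriv_sb (hq : q ∈ Sol J) (j : Fin g) {Y : Mat r}
    (hY : Y.trace = 0) :
    fderiv ℂ (relF J) q (Pi.single (sb j) (q (sb j) * Y)) = preH q j *
      (q (sa j) * q (sb j) * (Y - (q (sa j)).adjugate * Y * q (sa j)) *
        (q (sb j)).adjugate * (q (sa j)).adjugate) * (preH q j).adjugate := by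
  refine fderiv_single J q _ _ _ ?_
  set a := q (sa j) with hadef
  set b := q (sb j) with hbdef
  set P := preH q j
  set post := ((List.ofFn fun i => comm (hand q i)).drop (j + 1)).prod *
    (List.ofFn (bd J (conjs q))).prod with hpost
  have ha : a.det = 1 := hq.1 _
  have hb : b.det = 1 := hq.1 _
  have hP : P.det = 1 := det_preH hq.1 _
  have h1 : P * comm (a, b) * post = 1 := by
    rw [← relF_update_handle J q j (a, b), show (a, b) = hand q j from rfl,
      Function.update_eq_self]
    exact hq.2
  have hpe : post = (b * a * b.adjugate * a.adjugate) * P.adjugate := by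
    have hc : (P * comm (a, b)).det = 1 := by rw [det_mul, hP, hom_comm_det ha hb, one_mul]
    rw [← left_inv_eq_right_inv (adj_mul hc) h1]
    simp only [Surface.comm, adjugate_mul_distrib, adj_adj ha, adj_adj hb, mul_assoc]
  have hd := ((((hasDerivAt_line b Y).const_mul a).mul_const a.adjugate).fun_mul
    (hasDerivAt_adjugate_line b hY)).const_mul P |>.mul_const post
  have e : (fun z : ℂ => relF J (Function.update q (sb j) (b * (1 + z • Y)))) =
      fun z => P * (a * (b * (1 + z • Y)) * a.adjugate * (b * (1 + z • Y)).adjugate) * post :=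
    funext fun z => by
      rw [relF, (hand_update q j _).2.1, (hand_update q j _).2.2.2, relF_update_handle]
      rfl
  rw [e]
  refine hd.congr_deriv ?_
  simp only [zero_smul, add_zero, mul_one, hpe, sub_mul, mul_sub, add_mul, mul_add, mul_neg,
    neg_mul, mul_assoc]
  rw [← mul_assoc b.adjugate b, adj_mul hb, one_mul, ← mul_assoc a.adjugate a, adj_mul ha, one_mul,
    ← sub_eq_add_neg]

/-- Derivative along a conjugator. -/
lemma deriv_k (hJ : ∀ i, (J i).det = 1) (hq : q ∈ Sol J) (l : Fin s) {Y : Mat r}
    (hY : Y.trace = 0) :
    fderiv ℂ (relF J) q (Pi.single (Sum.inr l) (q (Sum.inr l) * Y)) = preB J q l *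
      (q (Sum.inr l) * (Y - J l * Y * (J l).adjugate) * (q (Sum.inr l)).adjugate) *
      (preB J q l).adjugate := by
  refine fderiv_single J q _ _ _ ?_
  set k := q (Sum.inr l) with hkdef
  set P := preB J q l
  set post := ((List.ofFn (bd J (conjs q))).drop (l + 1)).prod with hpost
  have hk : k.det = 1 := hq.1 _
  have hP : P.det = 1 := det_preB hJ hq.1 _
  have h1 : P * (k * J l * k.adjugate) * post = 1 := by
    rw [← relF_update_conj J q l k, hkdef, Function.update_eq_self]
    exact hq.2
  have hpe : post = (k * (J l).adjugate * k.adjugate) * P.adjugate := by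
    have hc : (P * (k * J l * k.adjugate)).det = 1 := by
      simp only [det_mul, hP, hk, hJ l, det_adj hk, mul_one]
    rw [← left_inv_eq_right_inv (adj_mul hc) h1]
    simp only [adjugate_mul_distrib, adj_adj hk, mul_assoc]
  have hd := ((((hasDerivAt_line k Y).mul_const (J l))).fun_mul
    (hasDerivAt_adjugate_line k hY)).const_mul P |>.mul_const post
  have e : (fun z : ℂ => relF J (Function.update q (Sum.inr l) (k * (1 + z • Y)))) =
      fun z => P * (k * (1 + z • Y) * J l * (k * (1 + z • Y)).adjugate) * post :=
    funext fun z => relF_update_conj J q l _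
  rw [e]
  refine hd.congr_deriv ?_
  simp only [zero_smul, add_zero, mul_one, hpe, sub_mul, mul_sub, add_mul, mul_add, mul_neg,
    neg_mul, mul_assoc]
  rw [← mul_assoc k.adjugate k, adj_mul hk, one_mul, ← mul_assoc (J l) (J l).adjugate,
    mul_adj (hJ l), one_mul, ← sub_eq_add_neg]

/-- Matrices with the same trace and the same pairing with traceless matrices are equal. -/
lemma eq_of_trace_sl {u v : Mat r} (ht : u.trace = v.trace)
    (h : ∀ Y : Mat r, Y.trace = 0 → (u * Y).trace = (v * Y).trace) : u = v := by
  rcases Nat.eq_zero_or_pos r with h0 | h0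
  · subst h0; ext i; exact i.elim0
  have hr : (r : ℂ) ≠ 0 := by exact_mod_cast h0.ne'
  refine Matrix.ext_iff_trace_mul_right.2 fun Y => ?_
  have hY := h (Y - (Y.trace / r) • 1) (by
    rw [trace_sub, trace_smul, trace_one, Fintype.card_fin, smul_eq_mul, div_mul_cancel₀ _ hr,
      sub_self])
  simp only [mul_sub, mul_smul_comm, mul_one, trace_sub, trace_smul, ht] at hY
  exact sub_left_injective hY

/-- What it means to annihilate the image of the two slots of a handle. -/
lemma orth_handle (hq : q ∈ Sol J) (j : Fin g) (x : Mat r)
    (h : ∀ b : Bool, ∀ Y : Mat r, Y.trace = 0 → (x * fderiv ℂ (relF J) q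
      (Pi.single (Sum.inl (j, b)) (q (Sum.inl (j, b)) * Y))).trace = 0) :
    let y := (preH q j).adjugate * x * preH q j
    y * q (sa j) = q (sa j) * y ∧ y * q (sb j) = q (sb j) * y := by
  intro y
  set a := q (sa j) with hadef
  set b := q (sb j) with hbdef
  set P := preH q j
  have ha : a.det = 1 := hq.1 _
  have hb : b.det = 1 := hq.1 _
  set u := a.adjugate * y * a with hu
  have h1 : b.adjugate * u * b = u := by
    refine eq_of_trace_sl ?_ fun Y hY => ?_
    · rw [trace_mul_cycle, mul_adj hb, one_mul]
    · have := h false Y hY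
      rw [deriv_sa hq j hY] at this
      simp only [mul_sub, sub_mul, trace_sub, sub_eq_zero, ← hadef, ← hbdef] at this
      refine Eq.trans ?_ (Eq.trans this.symm ?_)
      · conv_rhs => simp only [← mul_assoc]; rw [trace_mul_comm]; simp only [← mul_assoc]
        conv_rhs => rw [trace_mul_comm]; simp only [← mul_assoc]
        conv_rhs => rw [trace_mul_comm]; simp only [← mul_assoc]
        simp only [hu, y, mul_assoc]
      · simp only [← mul_assoc]
        rw [trace_mul_comm]; simp only [← mul_assoc]
        rw [trace_mul_comm]; simp only [← mul_assoc]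
        simp only [hu, y, mul_assoc]
  have h2 : a * u * a.adjugate = u := by
    refine eq_of_trace_sl ?_ fun Y hY => ?_
    · rw [trace_mul_cycle, adj_mul ha, one_mul]
    · have := h true Y hY
      rw [deriv_sb hq j hY] at this
      simp only [mul_sub, sub_mul, trace_sub, sub_eq_zero, ← hadef, ← hbdef] at this
      refine Eq.trans ?_ (Eq.trans this.symm ?_)
      · conv_rhs => simp only [← mul_assoc]; rw [trace_mul_comm]; simp only [← mul_assoc]
        conv_rhs => rw [trace_mul_comm]; simp only [← mul_assoc]
        conv_rhs => rw [trace_mul_comm]; simp only [← mul_assoc]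
        conv_rhs => rw [trace_mul_comm]; simp only [← mul_assoc]
        rw [← h1]; simp only [hu, y, mul_assoc]
      · conv_lhs => simp only [← mul_assoc]; rw [trace_mul_comm]; simp only [← mul_assoc]
        conv_lhs => rw [trace_mul_comm]; simp only [← mul_assoc]
        conv_lhs => rw [trace_mul_comm]; simp only [← mul_assoc]
        conv_rhs => rw [← h1]
        simp only [hu, y, mul_assoc]
  have hyu : y = u := by
    rw [← h2, hu]
    simp only [mul_assoc]
    rw [mul_adj ha, mul_one, ← mul_assoc, mul_adj ha, one_mul]
  constructor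
  · conv_rhs => rw [hyu, hu, ← mul_assoc, ← mul_assoc, mul_adj ha, one_mul]
  · rw [hyu]
    conv_rhs => rw [← h1, ← mul_assoc, ← mul_assoc, mul_adj hb, one_mul]

/-- What it means to annihilate the image of a conjugator. -/
lemma orth_conj (hJ : ∀ i, (J i).det = 1) (hq : q ∈ Sol J) (l : Fin s) (x : Mat r)
    (h : ∀ Y : Mat r, Y.trace = 0 → (x * fderiv ℂ (relF J) q
      (Pi.single (Sum.inr l) (q (Sum.inr l) * Y))).trace = 0) :
    let y := (preB J q l).adjugate * x * preB J q l
    y * bd J (conjs q) l = bd J (conjs q) l * y := by
  intro y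
  set k := q (Sum.inr l) with hkdef
  set P := preB J q l
  have hk : k.det = 1 := hq.1 _
  set u := k.adjugate * y * k with hu
  have h1 : (J l).adjugate * u * J l = u := by
    refine eq_of_trace_sl ?_ fun Y hY => ?_
    · rw [trace_mul_cycle, mul_adj (hJ l), one_mul]
    · have := h Y hY
      rw [deriv_k hJ hq l hY] at this
      simp only [mul_sub, sub_mul, trace_sub, sub_eq_zero, ← hkdef] at this
      refine Eq.trans ?_ (Eq.trans this.symm ?_)
      · conv_rhs => simp only [← mul_assoc]; rw [trace_mul_comm]; simp only [← mul_assoc]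
        conv_rhs => rw [trace_mul_comm]; simp only [← mul_assoc]
        conv_rhs => rw [trace_mul_comm]; simp only [← mul_assoc]
        simp only [hu, y, mul_assoc]
      · simp only [← mul_assoc]
        rw [trace_mul_comm]; simp only [← mul_assoc]
        rw [trace_mul_comm]; simp only [← mul_assoc]
        simp only [hu, y, mul_assoc]
  have h2 : u * J l = J l * u := by
    conv_rhs => rw [← h1, ← mul_assoc, ← mul_assoc, mul_adj (hJ l), one_mul]
  have hy : y = k * u * k.adjugate := by
    rw [hu]
    simp only [mul_assoc]
    rw [mul_adj hk, mul_one, ← mul_assoc, mul_adj hk, one_mul]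
  have hsw : ∀ A B : Mat r, k * A * k.adjugate * (k * B * k.adjugate) = k * (A * B) * k.adjugate :=
    fun A B => by
      simp only [mul_assoc]
      rw [← mul_assoc k.adjugate k, adj_mul hk, one_mul]
  show y * (k * J l * k.adjugate) = k * J l * k.adjugate * y
  rw [hy, hsw, hsw, h2]

end Vale.Agent.P002.Pair
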