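import Vale.Agent.P002.Pair.Dim
import Vale.Agent.P002.Pair.Rel
import Vale.Agent.P002.Pair.Alg

/-! Local dimension bounds for the strata of the representation space. -/

open Matrix Module Filter Topology
open scoped ENNReal

namespace Vale.Agent.P002.Pair

open Vale.Agent.P002.Surface (Mat comm PMap PF mul_adj adj_mul det_adj hom_comm_det
  hasDerivAt_det_one_add hasDerivAt_line)

attribute [local instance] Matrix.linftyOpNormedAddCommGroup Matrix.linftyOpNormedSpace
  Matrix.linftyOpNormedRing Matrix.linftyOpNormedAlgebra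

variable {g r s : ℕ} {J : Fin s → Mat r} {q : Amb g s r}

/-- The derivative of the determinant at a unimodular `a`. -/
noncomputable def detD (a : Mat r) : Mat r →L[ℂ] ℂ :=
  LinearMap.toContinuousLinearMap ((pairing r) a.adjugate)

lemma detD_apply (a w : Mat r) : detD a w = (a.adjugate * w).trace := rfl

lemma detD_self {a : Mat r} (ha : a.det = 1) : detD a a = r := by
  rw [detD_apply, adj_mul ha, trace_one, Fintype.card_fin]

lemma hasStrictFDerivAt_det {a : Mat r} (ha : a.det = 1) :
    HasStrictFDerivAt (fun M : Mat r => M.det) (detD a) a := by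
  have h : HasStrictFDerivAt (fun M : Mat r => M.det) (fderiv ℂ (fun M : Mat r => M.det) a) a :=
    (PF.contDiff (PMap.det' fun i j => PF.entry i j)).contDiffAt.hasStrictFDerivAt one_ne_zero
  refine h.congr_fderiv (ContinuousLinearMap.ext fun w => ?_)
  have hl : HasDerivAt (fun z : ℂ => a + z • w) w 0 := by
    have := ((hasDerivAt_id (0 : ℂ)).smul_const w).const_add a
    simp only [id, one_smul] at this
    exact this
  have h0 : HasFDerivAt (fun M : Mat r => M.det) (fderiv ℂ (fun M : Mat r => M.det) a)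
      (a + (0 : ℂ) • w) := by simpa using h.hasFDerivAt
  refine (h0.comp_hasDerivAt (0 : ℂ) hl).unique ?_
  refine (hasDerivAt_det_one_add (a.adjugate * w)).congr_of_eventuallyEq
    (Eventually.of_forall fun z => ?_)
  show (a + z • w).det = _
  have : a + z • w = a * (1 + z • (a.adjugate * w)) := by
    rw [mul_add, mul_one, mul_smul_comm, ← mul_assoc, mul_adj ha, one_mul]
  rw [this, det_mul, ha, one_mul]

/-- All determinants. -/
def dets (q : Amb g s r) : Idx g s → ℂ := fun t => (q t).det

/-- The derivative of all determinants. -/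
noncomputable def detsD (q : Amb g s r) : Amb g s r →L[ℂ] (Idx g s → ℂ) :=
  ContinuousLinearMap.pi fun t => (detD (q t)).comp (ContinuousLinearMap.proj t)

lemma hasStrictFDerivAt_dets (hq : ∀ t, (q t).det = 1) :
    HasStrictFDerivAt dets (detsD q) q :=
  hasStrictFDerivAt_pi.2 fun t =>
    (hasStrictFDerivAt_det (hq t)).comp q (ContinuousLinearMap.proj (R := ℂ) (φ := fun _ : Idx g s => Mat r) t).hasStrictFDerivAt

/-- The tangent space of the unimodular group. -/
noncomputable def tanS (a : Mat r) : Submodule ℂ (Mat r) := (detD a).ker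

lemma mem_tanS {a w : Mat r} : w ∈ tanS a ↔ (a.adjugate * w).trace = 0 := Iff.rfl

lemma mul_mem_tanS {a Y : Mat r} (ha : a.det = 1) (hY : Y.trace = 0) : a * Y ∈ tanS a := by
  rw [mem_tanS, ← mul_assoc, adj_mul ha, one_mul, hY]

lemma finrank_tanS (hr : 0 < r) {a : Mat r} (ha : a.det = 1) :
    finrank ℂ (tanS a) + 1 = r ^ 2 := by
  have h := (detD a).toLinearMap.finrank_range_add_finrank_ker
  have hs : (detD a).toLinearMap.range = ⊤ := LinearMap.range_eq_top.2 fun c =>
    ⟨(c / r) • a, by
      show detD a ((c / r) • a) = c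
      rw [map_smul, detD_self ha, smul_eq_mul, div_mul_cancel₀ _ (Nat.cast_ne_zero.2 hr.ne')]⟩
  rw [hs, finrank_top, finrank_self, Module.finrank_matrix, Fintype.card_fin, finrank_self,
    mul_one] at h
  rw [sq]
  show finrank ℂ (detD a).toLinearMap.ker + 1 = _
  omega

/-- The commutator map of a matrix as a continuous linear map, linear in the matrix. -/
noncomputable def adL (r : ℕ) : Mat r →L[ℂ] (Mat r →L[ℂ] Mat r) :=
  ContinuousLinearMap.mul ℂ (Mat r) - (ContinuousLinearMap.mul ℂ (Mat r)).flip

lemma adL_apply (a x : Mat r) : adL r a x = a * x - x * a := rfl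

lemma adL_ker (a : Mat r) : (adL r a).ker = cen a := by
  ext x; rw [LinearMap.mem_ker, mem_cen, ← sub_eq_zero (a := a * x)]; rfl

lemma one_mem_cen (a : Mat r) : (1 : Mat r) ∈ cen a := mem_cen.2 (by simp)

/-- The image of the second slot of a handle has codimension at most the centraliser. -/
lemma rank_sb (hr : 0 < r) (hq : q ∈ Sol J) (j : Fin g) {C : Submodule ℂ (Amb g s r)}
    (hC : ∀ Y : Mat r, Y.trace = 0 → Pi.single (sb j) (q (sb j) * Y) ∈ C) :
    ∃ I ≤ C.map (fderiv ℂ (relF J) q).toLinearMap,
      finrank ℂ I + finrank ℂ (cen (q (sa j))) = r ^ 2 := by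
  set a := q (sa j) with hadef
  set b := q (sb j) with hbdef
  set P := preH q j
  have ha : a.det = 1 := hq.1 _
  have hb : b.det = 1 := hq.1 _
  have hP : P.det = 1 := det_preH hq.1 _
  let Φ : Mat r →ₗ[ℂ] Mat r :=
    { toFun := fun Y => P * (a * b * (Y - a.adjugate * Y * a) * b.adjugate * a.adjugate) * P.adjugate
      map_add' := fun x y => by simp only [mul_add, add_mul, mul_sub, sub_mul]; abel
      map_smul' := fun c x => by
        simp only [mul_smul_comm, smul_mul_assoc, RingHom.id_apply, mul_sub, sub_mul, smul_sub] }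
  have hker : Φ.ker = cen a := by
    ext Y
    rw [LinearMap.mem_ker, mem_cen]
    constructor
    · intro h
      have h2 := congrArg (fun X => b.adjugate * a.adjugate * (P.adjugate * X * P) * (a * b)) h
      simp only [Φ, LinearMap.coe_mk, AddHom.coe_mk, mul_zero, zero_mul, mul_assoc] at h2
      simp only [← mul_assoc P.adjugate P, adj_mul hP, one_mul, ← mul_assoc a.adjugate a,
        adj_mul ha, ← mul_assoc b.adjugate b, adj_mul hb] at h2
      rw [mul_one, sub_eq_zero] at h2
      conv_lhs => rw [h2, ← mul_assoc, mul_adj ha, one_mul]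
    · intro h
      have : Y - a.adjugate * Y * a = 0 := by
        rw [mul_assoc, ← h, ← mul_assoc, adj_mul ha, one_mul, sub_self]
      simp [Φ, this]
  refine ⟨Φ.range, ?_, ?_⟩
  · rintro _ ⟨Y, rfl⟩
    have hr' : (r : ℂ) ≠ 0 := Nat.cast_ne_zero.2 hr.ne'
    set Y0 := Y - (Y.trace / r) • (1 : Mat r)
    have hY0 : Y0.trace = 0 := by
      rw [trace_sub, trace_smul, trace_one, Fintype.card_fin, smul_eq_mul,
        div_mul_cancel₀ _ hr', sub_self]
    refine ⟨_, hC Y0 hY0, ?_⟩
    show fderiv ℂ (relF J) q _ = Φ Y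
    rw [hbdef, deriv_sb hq j hY0]
    show Φ Y0 = Φ Y
    rw [map_sub, map_smul, show Φ 1 = 0 from LinearMap.mem_ker.1 (hker ▸ one_mem_cen a), smul_zero,
      sub_zero]
  · rw [← hker, Φ.finrank_range_add_finrank_ker, Module.finrank_matrix, Fintype.card_fin,
      finrank_self, mul_one, sq]

lemma preH_succ (q : Amb g s r) (j : Fin g) :
    preH q (j + 1) = preH q j * comm (hand q j) := by
  rw [preH, List.prod_take_succ _ _ (by simp), List.getElem_ofFn]
  rfl

lemma preB_succ (q : Amb g s r) (l : Fin s) :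
    preB J q (l + 1) = preB J q l * General.bd J (conjs q) l := by
  rw [preB, List.prod_take_succ _ _ (by simp), List.getElem_ofFn, ← mul_assoc]
  rfl

lemma commute_comm {a b y : Mat r} (ha : a.det = 1) (hb : b.det = 1) (h1 : y * a = a * y)
    (h2 : y * b = b * y) : y * comm (a, b) = comm (a, b) * y := by
  have hadj : ∀ {c : Mat r}, c.det = 1 → y * c = c * y → Commute y c.adjugate := fun {c} hc h => by
    show y * c.adjugate = c.adjugate * y
    calc y * c.adjugate = c.adjugate * (c * y) * c.adjugate := by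
          rw [← mul_assoc, adj_mul hc, one_mul]
      _ = c.adjugate * y := by rw [← h, mul_assoc, mul_assoc, mul_adj hc, mul_one]
  exact ((Commute.mul_right h1 h2).mul_right (hadj ha h1)).mul_right (hadj hb h2)

/-- Conjugation of an annihilator along one more factor. -/
lemma conj_succ {P c x : Mat r} (hc : c.det = 1)
    (h : P.adjugate * x * P * c = c * (P.adjugate * x * P)) :
    (P * c).adjugate * x * (P * c) = P.adjugate * x * P := by
  calc (P * c).adjugate * x * (P * c) = c.adjugate * (P.adjugate * x * P * c) := by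
        simp only [adjugate_mul_distrib, mul_assoc]
    _ = _ := by rw [h, ← mul_assoc, adj_mul hc, one_mul]

/-- The pairs on which a dimension count runs. -/
def four (jj : Fin 2 → Fin g) (t : Fin 2 × Bool) : Idx g s := Sum.inl (jj t.1, t.2)

lemma four_injective {jj : Fin 2 → Fin g} (h : Function.Injective jj) :
    Function.Injective (four (s := s) jj) := fun t t' e => by
  simp only [four, Sum.inl.injEq, Prod.mk.injEq] at e
  exact Prod.ext (h e.1) e.2

/-- Some affine chart holds a subspace invariant under two pairs. -/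
def Inv (jj : Fin 2 → Fin g) (q : Amb g s r) : Prop :=
  ∃ (S : Finset (Fin r)) (M : Mat r), S.Nonempty ∧ S ≠ Finset.univ ∧ M ∈ homS S ∧
    ∀ t, (1 - (dS S + M)) * q (four jj t) * (dS S + M) = 0

lemma scalar_of_not_inv (hr : 0 < r) {jj : Fin 2 → Fin g} (h : ¬ Inv jj q) {y : Mat r}
    (hy : ∀ t, y * q (four jj t) = q (four jj t) * y) : ∃ c : ℂ, y = c • 1 := by
  have : Nonempty (Fin r) := ⟨⟨0, hr⟩⟩
  obtain ⟨c, hc⟩ := Module.End.exists_eigenvalue (Matrix.toLin' y)
  refine ⟨c, ?_⟩
  by_contra hne
  set W := LinearMap.ker (Matrix.toLin' (y - c • 1)) with hW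
  have hW0 : W ≠ ⊥ := by
    obtain ⟨v, hv⟩ := hc.exists_hasEigenvector
    intro h0
    refine hv.2 ((Submodule.eq_bot_iff _).1 h0 v ?_)
    rw [hW, LinearMap.mem_ker, map_sub, LinearMap.sub_apply, hv.apply_eq_smul, map_smul,
      Matrix.toLin'_one, LinearMap.smul_apply, LinearMap.id_apply, sub_self]
  have hW1 : W ≠ ⊤ := by
    intro h1
    rw [hW, LinearMap.ker_eq_top, LinearEquiv.map_eq_zero_iff, sub_eq_zero] at h1
    exact hne h1
  obtain ⟨S, M, hS0, hS1, hM, hE⟩ := exists_chart (fun t => q (four jj t)) W hW0 hW1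
    fun t v hv => by
      rw [hW, LinearMap.mem_ker, Matrix.toLin'_apply] at hv ⊢
      rw [mulVec_mulVec, show (y - c • (1 : Mat r)) * q (four jj t) =
        q (four jj t) * (y - c • (1 : Mat r)) by simp [sub_mul, mul_sub, hy t], ← mulVec_mulVec, hv,
        mulVec_zero]
  exact h ⟨S, M, hS0, hS1, hM, hE⟩

/-- Two consecutive pairs without invariant subspace make the derivative onto. -/
lemma scalar_of_orth_two (hr : 0 < r) (hq : q ∈ Sol J) {jj : Fin 2 → Fin g}
    (hjj : (jj 1 : ℕ) = jj 0 + 1) (h : ¬ Inv jj q) {x : Mat r}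
    (hx : ∀ t, ∀ Y : Mat r, Y.trace = 0 → (x * fderiv ℂ (relF J) q
      (Pi.single (four jj t) (q (four jj t) * Y))).trace = 0) : ∃ c : ℂ, x = c • 1 := by
  obtain ⟨h1, h2⟩ := orth_handle hq (jj 0) x fun b => hx (0, b)
  obtain ⟨h3, h4⟩ := orth_handle hq (jj 1) x fun b => hx (1, b)
  set P := preH q (jj 0)
  set y := P.adjugate * x * P with hy
  have hy' : (preH q (jj 1)).adjugate * x * preH q (jj 1) = y := by
    rw [hjj, preH_succ]
    exact conj_succ (hom_comm_det (hq.1 _) (hq.1 _)) (commute_comm (hq.1 _) (hq.1 _) h1 h2)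
  rw [hy'] at h3 h4
  obtain ⟨c, hc⟩ := scalar_of_not_inv hr h (y := y) fun t => by
    obtain ⟨i, b⟩ := t
    fin_cases i <;> cases b
    exacts [h1, h2, h3, h4]
  refine ⟨c, ?_⟩
  have hP : P.det = 1 := det_preH hq.1 _
  calc x = P * P.adjugate * x * (P * P.adjugate) := by rw [mul_adj hP, one_mul, mul_one]
    _ = P * y * P.adjugate := by simp only [hy, mul_assoc]
    _ = c • 1 := by rw [hc, mul_smul_comm, mul_one, smul_mul_assoc, mul_adj hP]

/-- At an irreducible representation only scalars annihilate the image of the derivative. -/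
lemma scalar_of_orth_all (hJ : ∀ i, (J i).det = 1) (hq : q ∈ Sol J)
    (hirr : Algebra.adjoin ℂ (Set.range (fun i => (hand q i).1) ∪ Set.range (fun i => (hand q i).2)
      ∪ Set.range (General.bd J (conjs q))) = ⊤) {x : Mat r}
    (hx : ∀ t, ∀ Y : Mat r, Y.trace = 0 → (x * fderiv ℂ (relF J) q
      (Pi.single t (q t * Y))).trace = 0) : ∃ c : ℂ, x = c • 1 := by
  have hH : ∀ n, n ≤ g → (preH q n).adjugate * x * preH q n = x := by
    intro n
    induction n with
    | zero => intro _; simp [preH]
    | succ n ih =>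
      intro hn
      obtain ⟨h1, h2⟩ := orth_handle hq ⟨n, hn⟩ x fun b => hx _
      rw [show n + 1 = ((⟨n, hn⟩ : Fin g) : ℕ) + 1 from rfl, preH_succ]
      exact (conj_succ (hom_comm_det (hq.1 _) (hq.1 _))
        (commute_comm (hq.1 _) (hq.1 _) h1 h2)).trans (ih (by omega))
  have hB : ∀ n, n ≤ s → (preB J q n).adjugate * x * preB J q n = x := by
    intro n
    induction n with
    | zero =>
      intro _
      have := hH g le_rfl
      rw [preH, List.take_of_length_le (by simp)] at this
      simpa [preB, Surface.rel] using this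
    | succ n ih =>
      intro hn
      have h := orth_conj hJ hq ⟨n, hn⟩ x (hx _)
      rw [show n + 1 = ((⟨n, hn⟩ : Fin s) : ℕ) + 1 from rfl, preB_succ]
      exact (conj_succ (by simp [General.bd, conjs, det_mul, hJ, det_adjugate, hq.1 _]) h).trans
        (ih (by omega))
  have hcomm : ∀ y : Mat r, x * y = y * x := by
    intro y
    have hy : y ∈ Algebra.adjoin ℂ (Set.range (fun i => (hand q i).1) ∪
        Set.range (fun i => (hand q i).2) ∪ Set.range (General.bd J (conjs q))) := by
      rw [hirr]; exact Algebra.mem_top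
    refine (Algebra.commute_of_mem_adjoin_of_forall_mem_commute hy ?_).eq.symm |>.symm
    rintro z ((⟨i, rfl⟩ | ⟨i, rfl⟩) | ⟨i, rfl⟩)
    · have := (orth_handle hq i x fun b => hx _).1
      rwa [hH i i.2.le] at this
    · have := (orth_handle hq i x fun b => hx _).2
      rwa [hH i i.2.le] at this
    · have := orth_conj hJ hq i x (hx _)
      rwa [hB i i.2.le] at this
  obtain ⟨c, hc⟩ := mem_range_scalar_iff_commute_single'.2 fun i j => (hcomm (single i j 1)).symm
  exact ⟨c, by rw [← hc, scalar_apply, smul_one_eq_diagonal]⟩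

end Vale.Agent.P002.Pair
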