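import Vale.Agent.P002.Pair.Local
import Vale.Agent.P002.Global.Perturb
import Vale.Agent.P002.Global.Whole

/-! Outside a set of small dimension every representation is a limit of representations with an
irreducible handle (genus at least three). -/

open Matrix Module Filter Topology
open scoped ENNReal

namespace Vale.Agent.P002.Pair

open Vale.Agent.P002.Surface (Mat Tup rel PMap)

attribute [local instance] Matrix.linftyOpNormedAddCommGroup Matrix.linftyOpNormedSpace
  Matrix.linftyOpNormedRing Matrix.linftyOpNormedAlgebra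

variable {g r s : ℕ} {J : Fin s → Mat r}

lemma finrank_slots {c : ℕ} (S : Idx g s → Submodule ℂ (Mat r)) (e : Idx g s → ℕ)
    (h : ∀ t, finrank ℂ (S t) + e t + 1 ≤ r ^ 2) (hc : ∑ t, e t = c) :
    finrank ℂ (Submodule.pi Set.univ S) + c + (2 * g + s) ≤ (2 * g + s) * r ^ 2 := by
  have h1 := finrank_pi_sub S
  have h2 : ∑ t, (finrank ℂ (S t) + e t + 1) ≤ ∑ _t : Idx g s, r ^ 2 :=
    Finset.sum_le_sum fun t _ => h t
  have hcard : Fintype.card (Idx g s) = 2 * g + s := by simp [mul_comm]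
  simp only [Finset.sum_add_distrib, Finset.sum_const, Finset.card_univ, hcard, smul_eq_mul,
    mul_one, hc] at h2
  omega

lemma expected (hg : 1 ≤ g) (hr : 1 ≤ r) :
    (2 * g + s - 1) * (r ^ 2 - 1) + (2 * g + s) + r ^ 2 = (2 * g + s) * r ^ 2 + 1 := by
  obtain ⟨c, hc⟩ : ∃ c, 2 * g + s = c + 1 := ⟨2 * g + s - 1, by omega⟩
  obtain ⟨R, hR⟩ : ∃ R, r ^ 2 = R + 1 := ⟨r ^ 2 - 1, by
    have := Nat.one_le_pow 2 r hr; omega⟩
  rw [hc, hR, Nat.add_sub_cancel, Nat.add_sub_cancel]
  ring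

/-- Tuples with two derogatory handles. -/
def Bad1 (J : Fin s → Mat r) (i j : Fin g) : Set (Amb g s r) :=
  {q | q ∈ Sol J ∧ 2 * r ≤ finrank ℂ (cen (q (sa i))) ∧ 2 * r ≤ finrank ℂ (cen (q (sa j)))}

/-- Tuples with a regular enough handle and an invariant subspace of two others. -/
def Bad2 (J : Fin s → Mat r) (i : Fin g) (jj : Fin 2 → Fin g) : Set (Amb g s r) :=
  {q | q ∈ Sol J ∧ finrank ℂ (cen (q (sa i))) < 2 * r ∧ Inv jj q}

lemma single_mem_pi {S : Idx g s → Submodule ℂ (Mat r)} {t : Idx g s} {w : Mat r} (hw : w ∈ S t) :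
    (Pi.single t w : Amb g s r) ∈ Submodule.pi Set.univ S := fun t' _ => by
  by_cases h : t' = t
  · subst h; simpa using hw
  · rw [Pi.single_eq_of_ne h]; exact zero_mem _

/-- The tangent space of a slot, cut down by the commutators of the centraliser. -/
noncomputable def derTan (a : Mat r) : Submodule ℂ (Mat r) :=
  orth (Submodule.span ℂ {a.adjugate} ⊔ der a)

lemma trace_der {a u : Mat r} (hu : u ∈ der a) : (a * u).trace = 0 := by
  induction hu using Submodule.span_induction with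
  | mem w hw =>
    obtain ⟨x, hx, y, -, rfl⟩ := hw
    rw [mul_sub, trace_sub, ← mul_assoc, ← mul_assoc, mem_cen.1 hx, mul_assoc x a y,
      trace_mul_comm x, mul_assoc a y x, sub_self]
  | zero => simp
  | add u v _ _ hu hv => rw [mul_add, trace_add, hu, hv, add_zero]
  | smul c u _ hu => rw [mul_smul_comm, trace_smul, hu, smul_zero]

lemma finrank_derTan (hr : 0 < r) {a : Mat r} (ha : a.det = 1) :
    finrank ℂ (derTan a) + finrank ℂ (der a) + 1 = r ^ 2 := by
  have hne : a.adjugate ≠ 0 := fun h => by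
    have := trace_der (a := a) (u := (0 : Mat r)) (zero_mem _)
    have h2 := Surface.mul_adj ha
    rw [h, mul_zero] at h2
    exact one_ne_zero (α := ℂ) (by simpa using (congrFun (congrFun h2 ⟨0, hr⟩) ⟨0, hr⟩).symm)
  have hinf : Submodule.span ℂ {a.adjugate} ⊓ der a = ⊥ := by
    rw [Submodule.eq_bot_iff]
    intro x hx
    obtain ⟨c, rfl⟩ := Submodule.mem_span_singleton.1 hx.1
    have h := trace_der hx.2
    rw [mul_smul_comm, Surface.mul_adj ha, trace_smul, trace_one, Fintype.card_fin, smul_eq_mul,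
      mul_eq_zero] at h
    rcases h with h | h
    · rw [h, zero_smul]
    · exact absurd (Nat.cast_eq_zero.1 h) hr.ne'
  have h1 := Submodule.finrank_sup_add_finrank_inf_eq (Submodule.span ℂ {a.adjugate}) (der a)
  rw [hinf, finrank_bot, add_zero, finrank_span_singleton hne] at h1
  have h2 := finrank_orth (Submodule.span ℂ {a.adjugate} ⊔ der a)
  have h3 : finrank ℂ (derTan a) + finrank ℂ ↥(Submodule.span ℂ {a.adjugate} ⊔ der a) = r ^ 2 := h2
  have h4 : finrank ℂ ↥(Submodule.span ℂ {a.adjugate} ⊔ der a) = 1 + finrank ℂ (der a) := h1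
  omega

lemma mem_derTan {a w : Mat r} (h1 : detD a w = 0)
    (h2 : ∀ v ∈ cen a, ∃ u, a * u - u * a = w * v - v * w) : w ∈ derTan a := by
  refine mem_orth.2 fun u hu => ?_
  obtain ⟨y, hy, z, hz, rfl⟩ := Submodule.mem_sup.1 hu
  obtain ⟨c, rfl⟩ := Submodule.mem_span_singleton.1 hy
  rw [mul_add, trace_add, mul_smul_comm, trace_smul, trace_mul_comm w,
    show (a.adjugate * w).trace = 0 from h1, smul_zero, zero_add]
  clear hu
  induction hz using Submodule.span_induction with
  | mem t ht =>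
    obtain ⟨x, hx, y', hy', rfl⟩ := ht
    obtain ⟨t, ht⟩ := h2 x hx
    have h3 := congrArg (fun X => (y' * X).trace) ht
    simp only [mul_sub, trace_sub] at h3
    rw [← mul_assoc, ← mem_cen.1 hy', mul_assoc a, trace_mul_comm a, mul_assoc y', sub_self] at h3
    rw [mul_sub, trace_sub, ← mul_assoc w x, trace_mul_comm (w * x), trace_mul_comm w (y' * x),
      mul_assoc y' x w]
    exact h3.symm
  | zero => simp
  | add u v _ _ hu hv => rw [mul_add, trace_add, hu, hv, add_zero]
  | smul c' u _ hu => rw [mul_smul_comm, trace_smul, hu, smul_zero]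

lemma dimH_bad1 (hg : 1 ≤ g) (hr : 0 < r) {i j : Fin g} (hij : i ≠ j) :
    dimH (Bad1 J i j) ≤ ((2 * ((2 * g + s - 1) * (r ^ 2 - 1) - 1) : ℕ) : ℝ≥0∞) := by
  classical
  set z : Amb g s r → Fin g → ℕ := fun q k => finrank ℂ (cen (q (sa k))) with hz
  have hcov : Bad1 J i j ⊆ ⋃ n : ℕ × ℕ, {q ∈ Bad1 J i j | (z q i, z q j) = n} :=
    fun q hq => Set.mem_iUnion.2 ⟨_, hq, rfl⟩
  refine (dimH_mono hcov).trans ?_
  rw [dimH_iUnion]
  refine iSup_le fun n => dimH_le_of_local fun q hq => ?_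
  obtain ⟨⟨hsol, hi, hj⟩, hn⟩ := hq
  obtain ⟨U₁, hU₁, Ψ₁, Ψ₁', hd₁, h0₁, hU₁', hker₁⟩ := exists_rank_equation (adL r (q (sa i)))
  obtain ⟨U₂, hU₂, Ψ₂, Ψ₂', hd₂, h0₂, hU₂', hker₂⟩ := exists_rank_equation (adL r (q (sa j)))
  let P : Idx g s → (Amb g s r →L[ℂ] (Mat r →L[ℂ] Mat r)) := fun t =>
    (adL r).comp (ContinuousLinearMap.proj (R := ℂ) (φ := fun _ : Idx g s => Mat r) t)
  let G : Amb g s r → _ := fun x => ((dets x, relF J x), (Ψ₁ (P (sa i) x), Ψ₂ (P (sa j) x)))
  have e1 : HasStrictFDerivAt (fun x => Ψ₁ (P (sa i) x)) (Ψ₁'.comp (P (sa i))) q :=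
    by
    have h1 := (P (sa i)).hasStrictFDerivAt (x := q)
    have h2 : HasStrictFDerivAt Ψ₁ Ψ₁' (P (sa i) q) := hd₁
    exact h2.comp q h1
  have e2 : HasStrictFDerivAt (fun x => Ψ₂ (P (sa j) x)) (Ψ₂'.comp (P (sa j))) q :=
    by
    have h1 := (P (sa j)).hasStrictFDerivAt (x := q)
    have h2 : HasStrictFDerivAt Ψ₂ Ψ₂' (P (sa j) q) := hd₂
    exact h2.comp q h1
  have hG : HasStrictFDerivAt G (((detsD q).prod (fderiv ℂ (relF J) q)).prod
      ((Ψ₁'.comp (P (sa i))).prod (Ψ₂'.comp (P (sa j))))) q :=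
    ((hasStrictFDerivAt_dets hsol.1).prodMk (hasFDerivAt_relF J q)).prodMk
      (e1.prodMk e2)
  obtain ⟨U, hU, hdim⟩ := exists_small_nhds hG
  refine ⟨U ∩ (P (sa i) ⁻¹' U₁ ∩ P (sa j) ⁻¹' U₂), inter_mem hU (inter_mem
    ((P (sa i)).continuous.continuousAt.preimage_mem_nhds hU₁)
    ((P (sa j)).continuous.continuousAt.preimage_mem_nhds hU₂)), ?_⟩
  refine le_trans (dimH_mono ?_) (hdim.trans ?_)
  · rintro x ⟨⟨⟨hxs, -, -⟩, hxn⟩, hxU, hx1, hx2⟩
    refine ⟨?_, hxU⟩
    rw [← hn, Prod.mk.injEq] at hxn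
    show G x = G q
    refine Prod.ext (Prod.ext (funext fun t => (hxs.1 t).trans (hsol.1 t).symm)
      (hxs.2.trans hsol.2.symm)) (Prod.ext ?_ ?_)
    · exact ((hU₁' _ hx1).2 (((congrArg (fun S : Submodule ℂ (Mat r) => finrank ℂ S)
        (adL_ker (x (sa i)))).trans hxn.1).trans (congrArg (fun S : Submodule ℂ (Mat r) => finrank ℂ S)
        (adL_ker (q (sa i)))).symm)).trans h0₁.symm
    · exact ((hU₂' _ hx2).2 (((congrArg (fun S : Submodule ℂ (Mat r) => finrank ℂ S)
        (adL_ker (x (sa j)))).trans hxn.2).trans (congrArg (fun S : Submodule ℂ (Mat r) => finrank ℂ S)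
        (adL_ker (q (sa j)))).symm)).trans h0₂.symm
  set K := LinearMap.ker (((detsD q).prod (fderiv ℂ (relF J) q)).prod
      ((Ψ₁'.comp (P (sa i))).prod (Ψ₂'.comp (P (sa j))))).toLinearMap with hK
  let S : Idx g s → Submodule ℂ (Mat r) := fun t =>
    if t = sa i ∨ t = sa j then derTan (q t) else tanS (q t)
  let e : Idx g s → ℕ := fun t =>
    (if t = sa i then finrank ℂ (der (q t)) else 0) + if t = sa j then finrank ℂ (der (q t)) else 0
  have hsij : (sa i : Idx g s) ≠ sa j := fun h => hij (by simpa [sa] using h)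
  have hC := finrank_slots S e (fun t => ?_) (c := finrank ℂ (der (q (sa i))) + finrank ℂ (der (q (sa j))))
    (by simp [e, Finset.sum_add_distrib])
  rotate_left
  · by_cases h1 : t = sa i
    · subst h1
      have := finrank_derTan hr (hsol.1 (sa i))
      have hS : S (sa i) = derTan (q (sa i)) := if_pos (Or.inl rfl)
      have he : e (sa i) = finrank ℂ (der (q (sa i))) := by simp [e, hsij]
      rw [hS, he]
      exact this.le
    · by_cases h2 : t = sa j
      · subst h2
        have := finrank_derTan hr (hsol.1 (sa j))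
        have hS : S (sa j) = derTan (q (sa j)) := if_pos (Or.inr rfl)
        have he : e (sa j) = finrank ℂ (der (q (sa j))) := by simp [e, hsij.symm]
        rw [hS, he]
        exact this.le
      · have := finrank_tanS hr (hsol.1 t)
        have hS : S t = tanS (q t) := if_neg (by simp [h1, h2])
        have he : e t = 0 := by simp [e, h1, h2]
        rw [hS, he, Nat.add_zero]
        exact this.le
  have hKC : K ≤ Submodule.pi Set.univ S := by
    intro w hw t _
    have hdet : detD (q t) (w t) = 0 := congrFun (congrArg (fun x => x.1.1) hw) t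
    show w t ∈ if t = sa i ∨ t = sa j then derTan (q t) else tanS (q t)
    split_ifs with h
    · refine mem_derTan hdet fun v hv => ?_
      rcases h with rfl | rfl
      · exact hker₁ _ (congrArg (fun x => x.2.1) hw) v (sub_eq_zero.2 (mem_cen.1 hv))
      · exact hker₂ _ (congrArg (fun x => x.2.2) hw) v (sub_eq_zero.2 (mem_cen.1 hv))
    · exact hdet
  obtain ⟨I, hI, hIdim⟩ := rank_sb hr hsol i (C := Submodule.pi Set.univ S) fun Y hY =>
    single_mem_pi (by
      show _ ∈ if sb i = sa i ∨ sb i = sa j then _ else _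
      rw [if_neg (by simp [sa, sb])]
      exact mul_mem_tanS (hsol.1 _) hY)
  have hcount := finrank_count (fderiv ℂ (relF J) q).toLinearMap hKC
    (fun w hw => congrArg (fun x : ((Idx g s → ℂ) × Mat r) × ((Mat r →L[ℂ] Mat r) × (Mat r →L[ℂ] Mat r)) =>
      x.1.2) hw) hI
  have h1 := finrank_cen_le (q (sa i))
  have h2 := finrank_cen_le (q (sa j))
  have h3 := expected (s := s) hg hr
  have hC' : finrank ℂ ↥(Submodule.pi Set.univ S) +
      (finrank ℂ (der (q (sa i))) + finrank ℂ (der (q (sa j)))) + (2 * g + s) ≤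
      (2 * g + s) * r ^ 2 := hC
  have hcount' : finrank ℂ K + finrank ℂ I ≤ finrank ℂ ↥(Submodule.pi Set.univ S) := hcount
  exact_mod_cast (show 2 * finrank ℂ K ≤ 2 * ((2 * g + s - 1) * (r ^ 2 - 1) - 1) by omega)

lemma finrank_le_add_comap {E U : Type} [AddCommGroup E] [Module ℂ E] [FiniteDimensional ℂ E]
    [AddCommGroup U] [Module ℂ U] [FiniteDimensional ℂ U] (K : Submodule ℂ (E × U)) :
    finrank ℂ K ≤ finrank ℂ U + finrank ℂ (K.comap (LinearMap.inl ℂ E U)) := by
  have h := ((LinearMap.snd ℂ E U).comp K.subtype).finrank_range_add_finrank_ker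
  have h1 := Submodule.finrank_le ((LinearMap.snd ℂ E U).comp K.subtype).range
  let f : ((LinearMap.snd ℂ E U).comp K.subtype).ker →ₗ[ℂ] K.comap (LinearMap.inl ℂ E U) :=
    (((LinearMap.fst ℂ E U).comp K.subtype).comp (Submodule.subtype _)).codRestrict _ fun x => by
      have h0 : (x.1 : E × U).2 = 0 := x.2
      show ((x.1 : E × U).1, (0 : U)) ∈ K
      rw [← h0]
      exact x.1.2
  have h2 := LinearMap.finrank_le_finrank_of_injective (f := f) fun x y hxy =>
    Subtype.ext (Subtype.ext (Prod.ext (congrArg Subtype.val hxy :) (x.2.trans y.2.symm)))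
  omega

lemma dimH_bad2 (hg : 1 ≤ g) (hr : 2 ≤ r) {i : Fin g} {jj : Fin 2 → Fin g}
    (hjj : Function.Injective jj) (hi : ∀ k, jj k ≠ i) :
    dimH (Bad2 J i jj) ≤ ((2 * ((2 * g + s - 1) * (r ^ 2 - 1) - 1) : ℕ) : ℝ≥0∞) := by
  classical
  let lifted : ∀ S : Finset (Fin r), Set (Amb g s r × homS S) := fun S =>
    {z | z.1 ∈ Sol J ∧ finrank ℂ (cen (z.1 (sa i))) < 2 * r ∧ S.Nonempty ∧ S ≠ Finset.univ ∧
      ∀ t, (1 - (dS S + (z.2 : Mat r))) * z.1 (four jj t) * (dS S + (z.2 : Mat r)) = 0}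
  have hcov : Bad2 J i jj ⊆ ⋃ S, Prod.fst '' lifted S := by
    rintro q ⟨hq, hz, S, M, hS0, hS1, hM, hE⟩
    exact Set.mem_iUnion.2 ⟨S, (q, ⟨M, hM⟩), ⟨hq, hz, hS0, hS1, hE⟩, rfl⟩
  refine (dimH_mono hcov).trans ?_
  rw [dimH_iUnion]
  refine iSup_le fun S => (LipschitzWith.prod_fst.dimH_image_le _).trans ?_
  refine dimH_le_of_local fun z hz => ?_
  obtain ⟨q, M⟩ := z
  obtain ⟨hsol, hz, hS0, hS1, hE⟩ := hz
  set P : Mat r := dS S + (M : Mat r) with hP
  let G : Amb g s r × homS S → ((Idx g s → ℂ) × Mat r) × (Fin 2 × Bool → Mat r) := fun z =>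
    ((dets z.1, relF J z.1),
      fun t => (1 - (dS S + (z.2 : Mat r))) * z.1 (four jj t) * (dS S + (z.2 : Mat r)))
  have hGc : ContDiff ℂ 1 G := by
    have hdets : ContDiff ℂ 1 (dets : Amb g s r → Idx g s → ℂ) := contDiff_pi.2 fun t =>
      (Surface.PF.contDiff (Surface.PMap.det' fun a b => Surface.PF.entry a b)).comp
        (contDiff_apply ℂ (Mat r) t)
    have hsub : ContDiff ℂ 1 fun z : Amb g s r × homS S => dS S + (z.2 : Mat r) :=
      contDiff_const.add ((homS S).subtypeL.contDiff.comp contDiff_snd)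
    exact ((hdets.comp contDiff_fst).prodMk ((PMap.relF J).contDiff.comp contDiff_fst)).prodMk
      (contDiff_pi.2 fun t => ((contDiff_const.sub hsub).mul
        ((contDiff_apply ℂ (Mat r) (four jj t)).comp contDiff_fst)).mul hsub)
  set A := fderiv ℂ G (q, M) with hA
  have hG : HasStrictFDerivAt G A (q, M) := hGc.contDiffAt.hasStrictFDerivAt one_ne_zero
  let L : Amb g s r →L[ℂ] (Fin 2 × Bool → Mat r) := ContinuousLinearMap.pi fun t =>
    ((ContinuousLinearMap.mul ℂ (Mat r) (1 - P)).comp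
      ((ContinuousLinearMap.mul ℂ (Mat r)).flip P)).comp
      (ContinuousLinearMap.proj (R := ℂ) (φ := fun _ : Idx g s => Mat r) (four jj t))
  have hAinl : ∀ w, A (w, 0) = ((detsD q w, fderiv ℂ (relF J) q w), L w) := by
    have h1 := HasFDerivAt.comp (g := G) (f := fun x : Amb g s r => (x, M)) q hG.hasFDerivAt
      ((hasFDerivAt_id (𝕜 := ℂ) q).prodMk (hasFDerivAt_const M q))
    have h2 : HasFDerivAt (fun x : Amb g s r => ((dets x, relF J x), L x))
        (((detsD q).prod (fderiv ℂ (relF J) q)).prod L) q :=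
      ((hasStrictFDerivAt_dets hsol.1).prodMk (hasFDerivAt_relF J q)).hasFDerivAt.prodMk
        L.hasFDerivAt
    have he : (fun x : Amb g s r => ((dets x, relF J x), L x)) = fun x => G (x, M) :=
      funext fun x => Prod.ext rfl (funext fun t => (mul_assoc _ _ _).symm)
    rw [he] at h2
    exact fun w => DFunLike.congr_fun (h1.unique h2) w
  obtain ⟨U, hU, hdim⟩ := exists_small_nhds hG
  refine ⟨U, hU, le_trans (dimH_mono ?_) (hdim.trans ?_)⟩
  · rintro ⟨x, N⟩ ⟨⟨hxs, -, -, -, hxE⟩, hxU⟩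
    refine ⟨Prod.ext (Prod.ext (funext fun t => (hxs.1 t).trans (hsol.1 t).symm)
      (hxs.2.trans hsol.2.symm)) (funext fun t => ?_), hxU⟩
    exact (hxE t).trans (hE t).symm
  set K := A.toLinearMap.ker with hK
  set K' := K.comap (LinearMap.inl ℂ (Amb g s r) (homS S)) with hK'
  have hKK : finrank ℂ K ≤ finrank ℂ (homS S) + finrank ℂ K' := finrank_le_add_comap K
  set m := finrank ℂ (homS S) with hm
  let T : Finset (Idx g s) := Finset.univ.image (four jj)
  let Sl : Idx g s → Submodule ℂ (Mat r) := fun t => if t ∈ T then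
      tanS (q t) ⊓ (LinearMap.mulLeft ℂ (1 - P) ∘ₗ LinearMap.mulRight ℂ P).ker else tanS (q t)
  have hC := finrank_slots Sl (fun t => if t ∈ T then m else 0) (fun t => ?_) (c := 4 * m) (by
    rw [Finset.sum_ite_mem, Finset.univ_inter, Finset.sum_const, smul_eq_mul]
    congr 1
    rw [Finset.card_image_of_injective _ (four_injective hjj)]
    rfl)
  rotate_left
  · by_cases ht : t ∈ T
    · obtain ⟨t, -, rfl⟩ := Finset.mem_image.1 ht
      have hSl : Sl (four jj t) = tanS (q (four jj t)) ⊓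
          (LinearMap.mulLeft ℂ (1 - P) ∘ₗ LinearMap.mulRight ℂ P).ker := if_pos ht
      rw [hSl]; simp only [ht, if_true]
      set a := q (four jj t) with ha
      let u : Mat r →ₗ[ℂ] Mat r := LinearMap.mulLeft ℂ (1 - dS S) ∘ₗ LinearMap.mulRight ℂ (dS S) ∘ₗ
        LinearMap.mulLeft ℂ (1 - P) ∘ₗ LinearMap.mulRight ℂ P
      let Θ : Mat r →ₗ[ℂ] ℂ × homS S :=
        (detD a).toLinearMap.prod (u.codRestrict (homS S) fun w => ⟨_, rfl⟩)
      have hu : ∀ w, u w = (1 - dS S) * (((1 - P) * (w * P)) * dS S) := fun w => rfl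
      have hua : u a = 0 := by
        rw [hu, ← mul_assoc (1 - P) a P, show (1 - P) * a * P = 0 from hE t, zero_mul, mul_zero]
      have huM : ∀ N ∈ homS S, u N = N := fun N hN => by
        obtain ⟨h1, h2⟩ := homS_spec hN
        obtain ⟨h3, h4⟩ := homS_spec M.2
        have hNM : N * (M : Mat r) = 0 := by rw [← h2, mul_assoc, h3, mul_zero]
        have hMN : (M : Mat r) * N = 0 := by rw [← h4, mul_assoc, h1, mul_zero]
        rw [hu, hP, mul_add N, h2, hNM, add_zero, sub_mul 1 _ N, one_mul, add_mul, h1, hMN,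
          add_zero, sub_zero, h2, sub_mul, one_mul, h1, sub_zero]
      have hr' : (r : ℂ) ≠ 0 := Nat.cast_ne_zero.2 (by omega)
      have hΘ : Θ.range = ⊤ := LinearMap.range_eq_top.2 fun y => by
        refine ⟨(y.2 : Mat r) + ((y.1 - detD a (y.2 : Mat r)) / r) • a, Prod.ext ?_ (Subtype.ext ?_)⟩
        · show detD a _ = _
          rw [map_add, map_smul, detD_self (hsol.1 _), smul_eq_mul, div_mul_cancel₀ _ hr',
            add_sub_cancel]
        · show u _ = _
          rw [map_add, map_smul, hua, smul_zero, add_zero, huM _ y.2.2]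
      have hr0 := Θ.finrank_range_add_finrank_ker
      rw [hΘ, finrank_top, Module.finrank_prod, finrank_self, Module.finrank_matrix,
        Fintype.card_fin, finrank_self, mul_one, ← sq, ← hm] at hr0
      have hle : finrank ℂ (tanS a ⊓ (LinearMap.mulLeft ℂ (1 - P) ∘ₗ LinearMap.mulRight ℂ P).ker :
          Submodule ℂ (Mat r)) ≤ finrank ℂ Θ.ker :=
        Submodule.finrank_mono fun w hw => by
          have h0 : (1 - P) * (w * P) = 0 := hw.2
          exact Prod.ext hw.1 (Subtype.ext (by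
            show u w = 0
            rw [hu, h0, zero_mul, mul_zero]))
      omega
    · have := finrank_tanS (by omega : 0 < r) (hsol.1 t)
      rw [show Sl t = tanS (q t) from if_neg ht]
      simp only [ht, if_false]
      rw [Nat.add_zero]
      exact this.le
  have hKC : K' ≤ Submodule.pi Set.univ Sl := by
    intro w hw t _
    have hw' : A (w, 0) = 0 := hw
    rw [hAinl] at hw'
    have hdet : detD (q t) (w t) = 0 := congrFun (congrArg (fun x => x.1.1) hw') t
    show w t ∈ if t ∈ T then _ else tanS (q t)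
    split_ifs with h
    · obtain ⟨t, -, rfl⟩ := Finset.mem_image.1 h
      have h2 := congrFun (congrArg Prod.snd hw') t
      exact ⟨hdet, h2⟩
    · exact hdet
  obtain ⟨I, hI, hIdim⟩ := rank_sb (by omega) hsol i (C := Submodule.pi Set.univ Sl) fun Y hY =>
    single_mem_pi (by
      have : sb i ∉ T := by
        simp only [T, Finset.mem_image, Finset.mem_univ, true_and, not_exists]
        intro t ht
        simp only [four, sb, Sum.inl.injEq, Prod.mk.injEq] at ht
        exact hi _ ht.1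
      show _ ∈ if sb i ∈ T then _ else _
      rw [if_neg this]
      exact mul_mem_tanS (hsol.1 _) hY)
  have hcount := finrank_count (fderiv ℂ (relF J) q).toLinearMap hKC (fun w hw => by
    have hw' : A (w, 0) = 0 := hw
    rw [hAinl] at hw'
    exact congrArg (fun x => x.1.2) hw') hI
  have h1 := le_finrank_homS hS0 hS1
  have h3 := expected (s := s) hg (show 1 ≤ r by omega)
  have hC' : finrank ℂ ↥(Submodule.pi Set.univ Sl) + 4 * m + (2 * g + s) ≤ (2 * g + s) * r ^ 2 := hC
  have hcount' : finrank ℂ K' + finrank ℂ I ≤ finrank ℂ ↥(Submodule.pi Set.univ Sl) := hcount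
  exact_mod_cast (show 2 * finrank ℂ K ≤ 2 * ((2 * g + s - 1) * (r ^ 2 - 1) - 1) by omega)

/-- The map to traceless matrices. -/
noncomputable def tlm (r : ℕ) : Mat r →ₗ[ℂ] Mat r :=
  LinearMap.id - (((r : ℂ)⁻¹ • Matrix.traceLinearMap (Fin r) ℂ ℂ).smulRight (1 : Mat r))

lemma tlm_apply (M : Mat r) : tlm r M = M - ((r : ℂ)⁻¹ * M.trace) • 1 := rfl

lemma tlm_one (hr : 0 < r) : tlm r 1 = 0 := by
  rw [tlm_apply, trace_one, Fintype.card_fin, inv_mul_cancel₀ (Nat.cast_ne_zero.2 hr.ne'),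
    one_smul, sub_self]

/-- A handle can be made irreducible if only scalars annihilate the image of other slots. -/
lemma exists_irr_of_orth (hr : 2 ≤ r) (hJ : ∀ i, (J i).det = 1) {q : Amb g s r} (hq : q ∈ Sol J)
    {i : Fin g} {T : Set (Idx g s)} (hT : ∀ b, (Sum.inl (i, b) : Idx g s) ∉ T)
    (horth : ∀ x : Mat r, (∀ t ∈ T, ∀ Y : Mat r, Y.trace = 0 → (x * fderiv ℂ (relF J) q
      (Pi.single t (q t * Y))).trace = 0) → ∃ c : ℂ, x = c • 1)
    {V : Set (Amb g s r)} (hV : V ∈ 𝓝 q) :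
    ∃ x ∈ V, x ∈ Sol J ∧ Global.IrrPair (hand x i) := by
  classical
  have hr0 : 0 < r := by omega
  have hr' : (r : ℂ) ≠ 0 := Nat.cast_ne_zero.2 hr0.ne'
  let tlC : Mat r →L[ℂ] (tlm r).range := LinearMap.toContinuousLinearMap (tlm r).rangeRestrict
  let pr : Idx g s → (Amb g s r →L[ℂ] Mat r) := fun t =>
    ContinuousLinearMap.proj (R := ℂ) (φ := fun _ : Idx g s => Mat r) t
  let rs : (Idx g s → ℂ) →L[ℂ] ({t : Idx g s // t ≠ sa i ∧ t ≠ sb i} → ℂ) :=
    ContinuousLinearMap.pi fun t => ContinuousLinearMap.proj (R := ℂ) (φ := fun _ : Idx g s => ℂ) t.1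
  let G : Amb g s r → ({t : Idx g s // t ≠ sa i ∧ t ≠ sb i} → ℂ) × (tlm r).range × Mat r × Mat r :=
    fun x => (rs (dets x), tlC (relF J x), x (sa i), x (sb i))
  set F' := fderiv ℂ (relF J) q with hF'
  have hG : HasStrictFDerivAt G ((rs.comp (detsD q)).prod
      ((tlC.comp F').prod ((pr (sa i)).prod (pr (sb i))))) q :=
    (rs.hasStrictFDerivAt.comp q (hasStrictFDerivAt_dets hq.1)).prodMk
      ((tlC.hasStrictFDerivAt.comp q (hasFDerivAt_relF J q)).prodMk
        ((pr (sa i)).hasStrictFDerivAt.prodMk (pr (sb i)).hasStrictFDerivAt))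
  set A := (rs.comp (detsD q)).prod ((tlC.comp F').prod ((pr (sa i)).prod (pr (sb i)))) with hA
  have hsurj : A.range = ⊤ := by
    refine LinearMap.range_eq_top.2 fun y => ?_
    obtain ⟨d, ⟨M, M0, hM⟩, A', B'⟩ := y
    let w0 : Amb g s r := fun t => if h : t ≠ sa i ∧ t ≠ sb i then (d ⟨t, h⟩ / r) • q t
      else if t = sa i then A' else B'
    let C : Submodule ℂ (Amb g s r) := Submodule.pi Set.univ fun t =>
      if t ∈ T then tanS (q t) else ⊥
    obtain ⟨y, hy, c, hc⟩ := exists_add_smul_one hr0 (I := C.map F'.toLinearMap) (fun x hx => by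
      refine horth x fun t ht Y hY => hx _ ⟨_, ?_, rfl⟩
      refine single_mem_pi ?_
      simp only [ht, if_true]
      exact mul_mem_tanS (hq.1 _) hY) (M0 - F' w0)
    obtain ⟨w1, hw1, rfl⟩ := hy
    have hw1d : ∀ t, detD (q t) (w1 t) = 0 ∧ (t ∉ T → w1 t = 0) := by
      intro t
      have h : w1 t ∈ if t ∈ T then tanS (q t) else ⊥ := hw1 t trivial
      split_ifs at h with ht
      · exact ⟨h, fun h' => absurd ht h'⟩
      · rw [Submodule.mem_bot] at h
        exact ⟨by rw [h, map_zero], fun _ => h⟩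
    refine ⟨w0 + w1, Prod.ext (funext fun t => ?_) (Prod.ext (Subtype.ext ?_) (Prod.ext ?_ ?_))⟩
    · show detD (q t.1) (w0 t.1 + w1 t.1) = d t
      rw [map_add, (hw1d _).1, add_zero]
      simp only [w0, dif_pos t.2]
      rw [map_smul, detD_self (hq.1 _), smul_eq_mul, div_mul_cancel₀ _ hr']
    · show tlm r (F' (w0 + w1)) = M
      have : F' w1 = M0 - F' w0 - c • 1 := eq_sub_of_add_eq hc.symm
      rw [map_add, this, map_add, map_sub, map_sub, map_smul, tlm_one hr0, smul_zero, hM]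
      abel
    · show w0 (sa i) + w1 (sa i) = A'
      rw [(hw1d _).2 (hT _), add_zero]
      simp [w0]
    · show w0 (sb i) + w1 (sb i) = B'
      rw [(hw1d _).2 (hT _), add_zero]
      simp [w0, sa, sb]
  have hroots : ∀ᶠ z in 𝓝 (1 : ℂ), z ^ r = 1 → z = 1 := by
    have hp : (Polynomial.X ^ r - 1 : Polynomial ℂ) ≠ 0 := Polynomial.X_pow_sub_C_ne_zero hr0 1
    have hfin := (Polynomial.finite_setOfPred_isRoot hp).sdiff (t := {1})
    filter_upwards [hfin.isClosed.isOpen_compl.mem_nhds (by simp)] with z hz hzr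
    by_contra hne
    exact hz ⟨by simp [hzr], hne⟩
  have hc : Continuous fun x : Amb g s r => (r : ℂ)⁻¹ * (relF J x).trace :=
    continuous_const.mul (PMap.relF J).contDiff.continuous.matrix_trace
  have hev : ∀ᶠ x in 𝓝 q, x ∈ V ∧
      (((r : ℂ)⁻¹ * (relF J x).trace) ^ r = 1 → (r : ℂ)⁻¹ * (relF J x).trace = 1) := by
    refine Filter.Eventually.and hV ((hc.continuousAt (x := q)).eventually (p := fun z => z ^ r = 1 → z = 1) ?_)
    show ∀ᶠ y in 𝓝 ((r : ℂ)⁻¹ * (relF J q).trace), y ^ r = 1 → y = 1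
    rw [hq.2, trace_one, Fintype.card_fin, inv_mul_cancel₀ hr']
    exact hroots
  have himg : G '' {x | x ∈ V ∧ (((r : ℂ)⁻¹ * (relF J x).trace) ^ r = 1 →
      (r : ℂ)⁻¹ * (relF J x).trace = 1)} ∈ 𝓝 (G q) :=
    hG.map_nhds_eq_of_surj hsurj ▸ image_mem_map hev
  have hcont : Continuous fun Q : Mat r × Mat r => (rs (dets q), tlC (1 : Mat r), Q) := by fun_prop
  have hW := hcont.continuousAt.preimage_mem_nhds (x := hand q i)
    (show _ ∈ 𝓝 (rs (dets q), tlC (1 : Mat r), hand q i) by rw [← hq.2]; exact himg)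
  obtain ⟨Q, hQ, hQ1, hQ2, hQs⟩ := Global.exists_simple_pair hr0 (P := hand q i) (hq.1 _) (hq.1 _) hW
  obtain ⟨x, ⟨hxV, hxr⟩, hGx⟩ := hQ
  simp only [G, Prod.mk.injEq] at hGx
  obtain ⟨hxd, hxt, hxQ⟩ := hGx
  have hpair : hand x i = Q := hxQ
  have hxa : x (sa i) = Q.1 := congrArg Prod.fst hxQ
  have hxb : x (sb i) = Q.2 := congrArg Prod.snd hxQ
  have hdet : ∀ t, (x t).det = 1 := fun t => by
    by_cases ht : t ≠ sa i ∧ t ≠ sb i
    · exact (congrFun hxd ⟨t, ht⟩).trans (hq.1 t)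
    · rcases not_and_or.1 ht with h | h <;> rw [not_not] at h <;> subst h
      · exact hxa ▸ hQ1
      · exact hxb ▸ hQ2
  have hscal : relF J x = ((r : ℂ)⁻¹ * (relF J x).trace) • 1 := by
    have : tlm r (relF J x) = tlm r 1 := congrArg Subtype.val hxt
    rwa [tlm_one hr0, tlm_apply, sub_eq_zero] at this
  have hF : relF J x = 1 := by
    have hd := det_relF hJ hdet
    rw [hscal, det_smul, det_one, Fintype.card_fin, mul_one] at hd
    rw [hscal, hxr hd, one_smul]
  exact ⟨x, hxV, ⟨hdet, hF⟩, hpair ▸ hQs.irrPair hQ1⟩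

/-- A free handle can be made irreducible. -/
lemma exists_irr_near (hr : 2 ≤ r) (hJ : ∀ i, (J i).det = 1) {q : Amb g s r} (hq : q ∈ Sol J)
    {i : Fin g} {jj : Fin 2 → Fin g} (hjj : (jj 1 : ℕ) = jj 0 + 1) (hi : ∀ k, jj k ≠ i)
    (hinv : ¬ Inv jj q) {V : Set (Amb g s r)} (hV : V ∈ 𝓝 q) :
    ∃ x ∈ V, x ∈ Sol J ∧ Global.IrrPair (hand x i) :=
  exists_irr_of_orth hr hJ hq (T := Set.range (four (s := s) jj))
    (fun b => by
      rintro ⟨t, ht⟩
      simp only [four, Sum.inl.injEq, Prod.mk.injEq] at ht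
      exact hi _ ht.1)
    (fun _ hx => scalar_of_orth_two (by omega) hq hjj hinv fun t => hx _ ⟨t, rfl⟩) hV

/-- Back to handles and conjugators. -/
noncomputable def back (g s r : ℕ) : Amb g s r →L[ℂ] Tup g r × (Fin s → Mat r) :=
  (ContinuousLinearMap.pi fun j =>
      (ContinuousLinearMap.proj (R := ℂ) (φ := fun _ : Idx g s => Mat r) (sa j)).prod
        (ContinuousLinearMap.proj (R := ℂ) (φ := fun _ : Idx g s => Mat r) (sb j))).prod
    (ContinuousLinearMap.pi fun l =>
      ContinuousLinearMap.proj (R := ℂ) (φ := fun _ : Idx g s => Mat r) (Sum.inr l))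

lemma back_apply (q : Amb g s r) : back g s r q = (hand q, conjs q) := rfl

/-- **Small bad set.** For genus at least three, outside a set of small dimension every
representation is a limit of representations with an irreducible handle. -/
theorem smallBad (hg : 3 ≤ g) (hr : 2 ≤ r) (hJ : ∀ i, (J i).det = 1) : Global.SmallBad J g := by
  let i0 : Fin g := ⟨0, by omega⟩
  let i1 : Fin g := ⟨1, by omega⟩
  let i2 : Fin g := ⟨2, by omega⟩
  set N := (2 * g + s - 1) * (r ^ 2 - 1) with hN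
  have hNpos : 1 ≤ N := by
    have := Nat.one_lt_pow two_ne_zero (show 1 < r by omega)
    exact Nat.one_le_iff_ne_zero.2 (Nat.mul_ne_zero (by omega) (by omega))
  let B : Set (Amb g s r) := Bad1 J i0 i2 ∪ (Bad2 J i0 ![i1, i2] ∪ Bad2 J i2 ![i0, i1])
  refine ⟨back g s r '' B, ?_, fun z hz hzE U hU => ?_⟩
  · refine lt_of_le_of_lt ((back g s r).lipschitz.dimH_image_le B) (lt_of_le_of_lt ?_
      (Nat.cast_lt.2 (show 2 * (N - 1) < 2 * N by omega)))
    simp only [B, dimH_union, max_le_iff]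
    refine ⟨dimH_bad1 (by omega) (by omega) (by simp [i0, i2]),
      dimH_bad2 (by omega) hr ?_ ?_, dimH_bad2 (by omega) hr ?_ ?_⟩
    · intro a b h; fin_cases a <;> fin_cases b <;> simp_all [i1, i2]
    · intro k; fin_cases k <;> simp [i0, i1, i2]
    · intro a b h; fin_cases a <;> fin_cases b <;> simp_all [i0, i1]
    · intro k; fin_cases k <;> simp [i0, i1, i2]
  let q : Amb g s r :=
    Sum.elim (fun p => if p.2 then (z.1 p.1).2 else (z.1 p.1).1) fun l => z.2 l
  have hqz : back g s r q = z := by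
    refine Prod.ext (funext fun j => ?_) rfl
    simp [back_apply, hand, q]
  have hqs : q ∈ Sol J := by
    refine ⟨fun t => ?_, ?_⟩
    · rcases t with ⟨j, _ | _⟩ | l
      exacts [(hz.1 j).1, (hz.1 j).2, hz.2.1 l]
    · have := hz.2.2
      rw [← hqz] at this
      exact this
  have hqB : q ∉ B := fun h => hzE ⟨q, h, hqz⟩
  simp only [B, Set.mem_union, not_or] at hqB
  obtain ⟨h1, h2, h3⟩ := hqB
  have hcl : Continuous fun x : Amb g s r => (hand x, General.bd J (conjs x)) :=
    ((ContinuousLinearMap.fst ℂ _ _).comp (back g s r)).continuous.prodMk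
      (continuous_pi fun l => ((continuous_apply (Sum.inr l)).mul continuous_const).mul
        (continuous_apply (Sum.inr l)).matrix_adjugate)
  have hV : (fun x : Amb g s r => (hand x, General.bd J (conjs x))) ⁻¹' U ∈ 𝓝 q :=
    hcl.continuousAt.preimage_mem_nhds (by rw [← hqz] at hU; exact hU)
  have key : ∀ i (jj : Fin 2 → Fin g), (jj 1 : ℕ) = jj 0 + 1 → (∀ k, jj k ≠ i) → ¬ Inv jj q →
      ∃ y ∈ U, y ∈ Global.HomC J ∧ ∃ i, Global.IrrPair (y.1 i) := by
    intro i jj hjj hi hinv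
    obtain ⟨x, hx, hxs, hirr⟩ := exists_irr_near hr hJ hqs hjj hi hinv hV
    exact ⟨_, hx, ⟨fun j => ⟨hxs.1 _, hxs.1 _⟩, fun l => ⟨conjs x l, hxs.1 _, rfl⟩, hxs.2⟩,
      i, hirr⟩
  by_cases hA : finrank ℂ (cen (q (sa i0))) < 2 * r
  · exact key i0 ![i1, i2] rfl (fun k => by fin_cases k <;> simp [i0, i1, i2])
      fun h => h2 ⟨hqs, hA, h⟩
  · have hB : finrank ℂ (cen (q (sa i2))) < 2 * r := by
      by_contra hB; exact h1 ⟨hqs, by omega, by omega⟩
    exact key i2 ![i0, i1] rfl (fun k => by fin_cases k <;> simp [i0, i1, i2])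
      fun h => h3 ⟨hqs, hB, h⟩

end Vale.Agent.P002.Pair
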